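import Mathlib

/-!
Descent of lagrangians from a maximal subfield of odd degree: an explicit form of the transfer
argument of Bayer-Fluckiger and Lenstra.
-/

open Module

namespace Vale.Agent.P011.T2

/-- A hermitian form on a left vector space over a division ring with involution. -/
structure HF (D V : Type) [DivisionRing D] [StarRing D] [AddCommGroup V] [Module D V] where
  h : V → V → D
  add_left : ∀ x y z, h (x + y) z = h x z + h y z
  smul_left : ∀ (a : D) (x y : V), h (a • x) y = a * h x y
  star_h : ∀ x y, star (h x y) = h y x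

namespace HF

variable {D V : Type} [DivisionRing D] [StarRing D] [AddCommGroup V] [Module D V] (B : HF D V)

theorem add_right (x y z : V) : B.h x (y + z) = B.h x y + B.h x z := by
  rw [← B.star_h, B.add_left, star_add, B.star_h, B.star_h]

theorem smul_right (a : D) (x y : V) : B.h x (a • y) = B.h x y * star a := by
  rw [← B.star_h, B.smul_left, star_mul, B.star_h]

/-- the form as a linear map in the first variable -/
def lin (y : V) : V →ₗ[D] D where
  toFun x := B.h x y
  map_add' x z := B.add_left x z y
  map_smul' a x := B.smul_left a x y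

@[simp] theorem lin_apply (x y : V) : B.lin y x = B.h x y := rfl

@[simp] theorem zero_left (y : V) : B.h 0 y = 0 := (B.lin y).map_zero

@[simp] theorem zero_right (y : V) : B.h y 0 = 0 := by
  rw [← B.star_h, B.zero_left, star_zero]

theorem neg_left (x y : V) : B.h (-x) y = - B.h x y := (B.lin y).map_neg x

theorem neg_right (x y : V) : B.h x (-y) = - B.h x y := by
  rw [← B.star_h, B.neg_left, star_neg, B.star_h]

theorem sub_left (x y z : V) : B.h (x - y) z = B.h x z - B.h y z := (B.lin z).map_sub x y

theorem sub_right (x y z : V) : B.h x (y - z) = B.h x y - B.h x z := by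
  rw [← B.star_h, B.sub_left, star_sub, B.star_h, B.star_h]

theorem sum_left {ι : Type} (s : Finset ι) (f : ι → V) (y : V) :
    B.h (∑ i ∈ s, f i) y = ∑ i ∈ s, B.h (f i) y := map_sum (B.lin y) f s

theorem sum_right {ι : Type} (s : Finset ι) (f : ι → V) (y : V) :
    B.h y (∑ i ∈ s, f i) = ∑ i ∈ s, B.h y (f i) := by
  rw [← B.star_h, B.sum_left, star_sum]
  exact Finset.sum_congr rfl fun i _ => B.star_h _ _

/-- nondegenerate forms -/
def Nondeg : Prop := ∀ x, (∀ y, B.h x y = 0) → x = 0

end HF

/-- The data of a symmetric element `θ` which is a zero of the polynomial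
`X ^ n + ∑ c i * X ^ i` with central symmetric coefficients; the `b i` are the coefficients of
the quotient of this polynomial by `X - θ`. -/
structure TD (D : Type) [DivisionRing D] [StarRing D] (n : ℕ) where
  θ : D
  c : ℕ → D
  b : ℕ → D
  star_θ : star θ = θ
  c_comm : ∀ i x, c i * x = x * c i
  star_c : ∀ i, star (c i) = c i
  c_zero : c 0 ≠ 0
  b_comm : ∀ i x, x * θ = θ * x → x * b i = b i * x
  star_b : ∀ i, star (b i) = b i
  b_last : b (n - 1) = 1
  b_succ : ∀ i, i + 1 < n → b i = c (i + 1) + θ * b (i + 1)
  b_zero : θ * b 0 = - c 0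

namespace TD

variable {D V : Type} [DivisionRing D] [StarRing D] [AddCommGroup V] [Module D V]

/-- the values of the transfer map at the powers of `θ` -/
def s {n : ℕ} (T : TD D n) (m : ℕ) : D :=
  if m = 0 then 1 else if _h : m < n then 0 else
    if _hn : n = 0 then 0 else - ∑ i ∈ (Finset.range n).attach, T.c i.1 * T.s (m - n + i.1)
termination_by m
decreasing_by
  have := Finset.mem_range.mp i.2
  omega

variable {n : ℕ} (T : TD D n)

theorem s_zero : T.s 0 = 1 := by
  rw [s]; simp

theorem s_eq_zero {m : ℕ} (h0 : 0 < m) (h : m < n) : T.s m = 0 := by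
  rw [s]
  rw [if_neg (by omega), dif_pos h]

theorem s_add {m : ℕ} (hn : 0 < n) : T.s (m + n) = - ∑ i ∈ Finset.range n, T.c i * T.s (m + i) := by
  rw [s]
  rw [if_neg (by omega), dif_neg (by omega), dif_neg (by omega)]
  congr 1
  rw [Finset.sum_attach (Finset.range n) (fun i => T.c i * T.s (m + n - n + i))]
  refine Finset.sum_congr rfl fun i _ => ?_
  rw [Nat.add_sub_cancel]

theorem s_comm (m : ℕ) : ∀ x : D, T.s m * x = x * T.s m := by
  induction m using Nat.strong_induction_on with
  | _ m ih =>
    intro x
    rcases Nat.eq_zero_or_pos m with rfl | h0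
    · rw [s_zero, one_mul, mul_one]
    rcases lt_or_ge m n with h | h
    · rw [T.s_eq_zero h0 h, zero_mul, mul_zero]
    rcases Nat.eq_zero_or_pos n with hn | hn
    · rw [s, if_neg (by omega), dif_neg (by omega), dif_pos hn, zero_mul, mul_zero]
    obtain ⟨k, rfl⟩ : ∃ k, m = k + n := ⟨m - n, by omega⟩
    rw [T.s_add hn, neg_mul, mul_neg, Finset.sum_mul, Finset.mul_sum]
    congr 1
    refine Finset.sum_congr rfl fun i hi => ?_
    have := Finset.mem_range.mp hi
    rw [mul_assoc, ih (k + i) (by omega) x, ← mul_assoc, T.c_comm, mul_assoc]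

theorem star_s (m : ℕ) : star (T.s m) = T.s m := by
  induction m using Nat.strong_induction_on with
  | _ m ih =>
    rcases Nat.eq_zero_or_pos m with rfl | h0
    · rw [s_zero, star_one]
    rcases lt_or_ge m n with h | h
    · rw [T.s_eq_zero h0 h, star_zero]
    rcases Nat.eq_zero_or_pos n with hn | hn
    · rw [s, if_neg (by omega), dif_neg (by omega), dif_pos hn, star_zero]
    obtain ⟨k, rfl⟩ : ∃ k, m = k + n := ⟨m - n, by omega⟩
    rw [T.s_add hn, star_neg, star_sum]
    congr 1
    refine Finset.sum_congr rfl fun i hi => ?_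
    have := Finset.mem_range.mp hi
    rw [star_mul, ih (k + i) (by omega), T.star_c, T.c_comm]

theorem sum_s_b (hn : 0 < n) (i : ℕ) :
    ∑ j ∈ Finset.range n, T.s (i + j) * T.b j = T.θ ^ i * T.b 0 := by
  induction i with
  | zero =>
    obtain ⟨k, rfl⟩ : ∃ k, n = k + 1 := ⟨n - 1, by omega⟩
    rw [Finset.sum_range_succ']
    rw [Finset.sum_eq_zero]
    · simp [s_zero]
    · intro j hj
      have := Finset.mem_range.mp hj
      rw [T.s_eq_zero (by omega) (by omega), zero_mul]
  | succ i ih =>
    obtain ⟨k, rfl⟩ : ∃ k, n = k + 1 := ⟨n - 1, by omega⟩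
    have hb : T.b k = 1 := T.b_last
    rw [Finset.sum_range_succ, hb, mul_one]
    have e1 : T.s (i + 1 + k) = - ∑ j ∈ Finset.range (k + 1), T.c j * T.s (i + j) := by
      rw [← T.s_add hn]; congr 1; omega
    rw [e1, Finset.sum_range_succ' (fun j => T.c j * T.s (i + j))]
    have e2 : ∀ j ∈ Finset.range k, T.s (i + 1 + j) * T.b j =
        T.c (j + 1) * T.s (i + (j + 1)) + T.θ * (T.s (i + (j + 1)) * T.b (j + 1)) := by
      intro j hj
      have := Finset.mem_range.mp hj
      rw [T.b_succ j (by omega), show i + 1 + j = i + (j + 1) by omega, mul_add,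
        ← T.c_comm, ← mul_assoc, ← mul_assoc, T.s_comm _ T.θ]
    rw [Finset.sum_congr rfl e2, Finset.sum_add_distrib, ← Finset.mul_sum]
    rw [Finset.sum_range_succ'] at ih
    have e3 : ∑ j ∈ Finset.range k, T.s (i + (j + 1)) * T.b (j + 1) =
        T.θ ^ i * T.b 0 - T.s (i + 0) * T.b 0 := by
      rw [← ih]; abel
    rw [e3, mul_sub, add_zero, pow_succ', ← mul_assoc T.θ (T.s i), ← T.s_comm i T.θ,
      mul_assoc (T.s i), T.b_zero, ← mul_assoc]
    have e4 : T.s i * -T.c 0 = - (T.c 0 * T.s i) := by
      rw [mul_neg, T.c_comm]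
    rw [e4, mul_assoc]
    abel

/-- the transferred form -/
def tr (B : HF D V) : HF D (Fin n → V) where
  h v w := ∑ i : Fin n, ∑ j : Fin n, T.s (i + j) * B.h (v i) (w j)
  add_left x y z := by
    simp only [Pi.add_apply, B.add_left, mul_add, Finset.sum_add_distrib]
  smul_left a x y := by
    simp only [Pi.smul_apply, B.smul_left, Finset.mul_sum]
    refine Finset.sum_congr rfl fun i _ => Finset.sum_congr rfl fun j _ => ?_
    rw [← mul_assoc, T.s_comm, mul_assoc]
  star_h x y := by
    simp only [star_sum, star_mul, B.star_h, T.star_s]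
    rw [Finset.sum_comm]
    refine Finset.sum_congr rfl fun i _ => Finset.sum_congr rfl fun j _ => ?_
    rw [← T.s_comm, add_comm (i : ℕ)]

/-- the projection onto the centralizer of `θ`, up to a factor -/
def Pi' (x : D) : D := ∑ i : Fin n, T.b i * x * T.θ ^ (i : ℕ)

/-- the embedding attached to the separability idempotent -/
def phi (v : V) : Fin n → V := fun i => T.b i • v

theorem tr_phi (hn : 0 < n) (B : HF D V) (v w : V) :
    (T.tr B).h (T.phi v) (T.phi w) = T.Pi' (B.h v w) * T.b 0 := by
  change ∑ i : Fin n, ∑ j : Fin n, T.s (i + j) * B.h (T.b i • v) (T.b j • w) = _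
  rw [Pi', Finset.sum_mul]
  refine Finset.sum_congr rfl fun i _ => ?_
  have e : ∀ j : Fin n, T.s (i + j) * B.h (T.b i • v) (T.b j • w) =
      T.b i * B.h v w * (T.s (i + j) * T.b j) := by
    intro j
    rw [B.smul_left, B.smul_right, T.star_b, T.s_comm, mul_assoc, T.s_comm]
    simp only [mul_assoc]
  rw [Finset.sum_congr rfl fun j _ => e j, ← Finset.mul_sum]
  have e2 := Finset.sum_range (n := n) (fun j => T.s (i + j) * T.b j)
  rw [← e2, T.sum_s_b hn, mul_assoc (T.b i * B.h v w)]

/-- Linear independence over the centralizer of `θ` gives linear independence in the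
transferred space. -/
theorem phi_indep (hn : 0 < n) {q : ℕ} (v : Fin q → V)
    (hv : ∀ a : Fin q → D, (∀ j, a j * T.θ = T.θ * a j) → ∑ j, a j • v j = 0 → a = 0) :
    LinearIndependent D (fun j => T.phi (v j)) := by
  classical
  rw [Fintype.linearIndependent_iff]
  have key : ∀ (m : ℕ) (a : Fin q → D), (Finset.univ.filter fun j => a j ≠ 0).card = m →
      ∑ j, a j • T.phi (v j) = 0 → a = 0 := by
    intro m
    induction m using Nat.strong_induction_on with
    | _ m ih =>
      intro a hm ha
      by_contra hne
      obtain ⟨j0, hj0⟩ : ∃ j, a j ≠ 0 := by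
        by_contra h
        push Not at h
        exact hne (funext h)
      have hrel : ∀ i : Fin n, ∑ j, (a j * T.b i) • v j = 0 := by
        intro i
        have := congrFun ha i
        rw [Finset.sum_apply] at this
        simpa [phi, smul_smul] using this
      have hrel1 : ∑ j, a j • v j = 0 := by
        have := hrel ⟨n - 1, by omega⟩
        simpa [T.b_last] using this
      -- the relation multiplied by θ
      have hθ : ∀ i : Fin n, ∑ j, (a j * T.θ * T.b i) • v j = 0 := by
        rintro ⟨i, hi⟩
        have hc : ∀ x : D, ∑ j, (a j * x) • v j = ∑ j, (a j * x) • v j := fun _ => rfl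
        rcases Nat.eq_zero_or_pos i with rfl | hi0
        · have e : ∀ j, (a j * T.θ * T.b 0) • v j = (- T.c 0) • (a j • v j) := by
            intro j
            rw [mul_assoc, T.b_zero, smul_smul, mul_neg, neg_mul, T.c_comm]
          change ∑ j, (a j * T.θ * T.b 0) • v j = 0
          rw [Finset.sum_congr rfl fun j _ => e j, ← Finset.smul_sum, hrel1, smul_zero]
        · obtain ⟨k, rfl⟩ : ∃ k, i = k + 1 := ⟨i - 1, by omega⟩
          have e : ∀ j, (a j * T.θ * T.b (k + 1)) • v j =
              (a j * T.b k) • v j - T.c (k + 1) • (a j • v j) := by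
            intro j
            have h1 : T.θ * T.b (k + 1) = T.b k - T.c (k + 1) := by
              rw [T.b_succ k hi]; abel
            rw [mul_assoc, h1, smul_smul, ← sub_smul, mul_sub, T.c_comm (k + 1) (a j)]
          change ∑ j, (a j * T.θ * T.b (k + 1)) • v j = 0
          rw [Finset.sum_congr rfl fun j _ => e j, Finset.sum_sub_distrib, ← Finset.smul_sum,
            hrel1, smul_zero, sub_zero]
          exact hrel ⟨k, by omega⟩
      -- normalise
      let a' : Fin q → D := fun j => (a j0)⁻¹ * a j
      have ha'j0 : a' j0 = 1 := inv_mul_cancel₀ hj0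
      let a'' : Fin q → D := fun j => a' j * T.θ - T.θ * a' j
      have hsum : ∑ j, a'' j • T.phi (v j) = 0 := by
        have e : ∀ j, a'' j • T.phi (v j) = (a j0)⁻¹ • ((a j * T.θ) • T.phi (v j)) -
            (T.θ * (a j0)⁻¹) • (a j • T.phi (v j)) := by
          intro j
          rw [smul_smul, smul_smul, ← sub_smul]
          simp only [a'', a', mul_assoc]
        rw [Finset.sum_congr rfl fun j _ => e j, Finset.sum_sub_distrib, ← Finset.smul_sum,
          ← Finset.smul_sum, ha, smul_zero, sub_zero]
        have : ∑ j, (a j * T.θ) • T.phi (v j) = 0 := by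
          funext i
          rw [Finset.sum_apply]
          have := hθ i
          simpa [phi, smul_smul] using this
        rw [this, smul_zero]
      have hcard : (Finset.univ.filter fun j => a'' j ≠ 0).card < m := by
        rw [← hm]
        apply Finset.card_lt_card
        rw [Finset.ssubset_iff_of_subset]
        · refine ⟨j0, by simpa using hj0, ?_⟩
          simp [a'', ha'j0]
        · intro j hj
          simp only [Finset.mem_filter, Finset.mem_univ, true_and] at hj ⊢
          intro h0
          apply hj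
          simp [a'', a', h0]
      have h0 := ih _ hcard a'' rfl hsum
      have hcomm : ∀ j, a' j * T.θ = T.θ * a' j := fun j => sub_eq_zero.mp (congrFun h0 j)
      have h1 : ∑ j, a' j • v j = 0 := by
        have e : ∀ j, a' j • v j = (a j0)⁻¹ • (a j • v j) := fun j => by
          rw [smul_smul]
        rw [Finset.sum_congr rfl fun j _ => e j, ← Finset.smul_sum, hrel1, smul_zero]
      have h2 := hv a' hcomm h1
      have h3 := congrFun h2 j0
      rw [ha'j0] at h3
      exact one_ne_zero h3
  intro a ha j
  exact congrFun (key _ a rfl ha) j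

theorem isotropic_span (B : HF D V) {ι : Type} (v : ι → V) (h : ∀ j k, B.h (v j) (v k) = 0) :
    ∀ x ∈ Submodule.span D (Set.range v), ∀ y ∈ Submodule.span D (Set.range v), B.h x y = 0 := by
  intro x hx y hy
  induction hx using Submodule.span_induction with
  | mem x hx =>
    obtain ⟨j, rfl⟩ := hx
    induction hy using Submodule.span_induction with
    | mem y hy => obtain ⟨k, rfl⟩ := hy; exact h j k
    | zero => exact B.zero_right _
    | add a b _ _ ha hb => rw [B.add_right, ha, hb, add_zero]
    | smul a b _ hb => rw [B.smul_right, hb, zero_mul]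
  | zero => exact B.zero_left _
  | add a b _ _ ha hb => rw [B.add_left, ha, hb, add_zero]
  | smul a b _ hb => rw [B.smul_left, hb, mul_zero]

/-- The descent theorem. -/
theorem descent [FiniteDimensional D V] (r : ℕ) (T : TD D (2 * r + 1)) (B : HF D V)
    (hB : B.Nondeg) {q : ℕ} (v : Fin q → V)
    (hli : LinearIndependent D (fun j => T.phi (v j)))
    (hiso : ∀ j k, T.Pi' (B.h (v j) (v k)) = 0)
    (hq : (2 * r + 1) * finrank D V ≤ 2 * q) :
    ∃ Λ : Submodule D V, finrank D V ≤ 2 * finrank D Λ ∧ ∀ x ∈ Λ, ∀ y ∈ Λ, B.h x y = 0 := by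
  classical
  let B' : HF D (Fin (2 * r + 1) → V) := T.tr B
  let N : Submodule D (Fin (2 * r + 1) → V) := Submodule.span D (Set.range fun j => T.phi (v j))
  have hNq : finrank D N = q := by
    rw [finrank_span_eq_card hli, Fintype.card_fin]
  have hN : ∀ x ∈ N, ∀ y ∈ N, B'.h x y = 0 := by
    apply isotropic_span
    intro j k
    change (T.tr B).h _ _ = 0
    rw [T.tr_phi (by omega), hiso, zero_mul]
  let i0 : Fin (2 * r + 1) := ⟨0, by omega⟩
  let P : Submodule D (Fin (2 * r + 1) → V) :=
    { carrier := {x | x i0 = 0 ∧ ∀ i : Fin (2 * r + 1), r < (i : ℕ) → x i = 0}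
      add_mem' := by
        rintro a b ⟨ha, ha'⟩ ⟨hb, hb'⟩
        exact ⟨by rw [Pi.add_apply, ha, hb, add_zero], fun i hi => by
          rw [Pi.add_apply, ha' i hi, hb' i hi, add_zero]⟩
      zero_mem' := ⟨rfl, fun _ _ => rfl⟩
      smul_mem' := by
        rintro c a ⟨ha, ha'⟩
        exact ⟨by rw [Pi.smul_apply, ha, smul_zero], fun i hi => by
          rw [Pi.smul_apply, ha' i hi, smul_zero]⟩ }
  have hPdim : finrank D P ≤ r * finrank D V := by
    let g : P →ₗ[D] (Fin r → V) :=
      { toFun := fun x i => x.1 ⟨i + 1, by omega⟩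
        map_add' := fun a b => rfl
        map_smul' := fun a b => rfl }
    have hg : Function.Injective g := by
      rw [← LinearMap.ker_eq_bot, LinearMap.ker_eq_bot']
      rintro ⟨x, hx0, hx⟩ h
      apply Subtype.ext
      funext ⟨i, hi⟩
      change x ⟨i, hi⟩ = 0
      rcases Nat.eq_zero_or_pos i with rfl | h0
      · exact hx0
      rcases lt_or_ge r i with h1 | h1
      · exact hx _ h1
      · obtain ⟨k, rfl⟩ : ∃ k, i = k + 1 := ⟨i - 1, by omega⟩
        exact congrFun h ⟨k, by omega⟩
    have := LinearMap.finrank_le_finrank_of_injective hg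
    rwa [Module.finrank_pi_fintype, Finset.sum_const, Finset.card_univ, Fintype.card_fin,
      smul_eq_mul] at this
  -- the orthogonal space of `P`
  have hperp : ∀ x : Fin (2 * r + 1) → V, (∀ p ∈ P, B'.h x p = 0) →
      ∀ i : Fin (2 * r + 1), r < (i : ℕ) → x i = 0 := by
    intro x hx
    have h1 : ∀ j, 1 ≤ j → j ≤ r → ∑ i : Fin (2 * r + 1), T.s (i + j) • x i = 0 := by
      intro j hj1 hj2
      apply hB
      intro y
      have h2 := hx (Pi.single ⟨j, by omega⟩ y) ⟨by
        rw [Pi.single_eq_of_ne]
        intro h; exact absurd (congrArg Fin.val h) (by simp [i0]; omega), fun i hi => by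
        rw [Pi.single_eq_of_ne]
        rintro rfl
        simp at hi; omega⟩
      rw [B.sum_left]
      rw [← h2]
      change _ = ∑ i : Fin (2 * r + 1), ∑ k : Fin (2 * r + 1), T.s (i + k) *
        B.h (x i) ((Pi.single (⟨j, by omega⟩ : Fin (2 * r + 1)) y : Fin (2 * r + 1) → V) k)
      refine Finset.sum_congr rfl fun i _ => ?_
      rw [Finset.sum_eq_single ⟨j, by omega⟩]
      · rw [Pi.single_eq_same, B.smul_left]
      · intro k _ hk
        rw [Pi.single_eq_of_ne hk, B.zero_right, mul_zero]
      · intro h; exact absurd (Finset.mem_univ _) h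
    have h2 : ∀ j, 1 ≤ j → j ≤ r → ∀ i : Fin (2 * r + 1), (i : ℕ) + j = 2 * r + 1 → x i = 0 := by
      intro j
      induction j using Nat.strong_induction_on with
      | _ j ih =>
        intro hj1 hj2 i hi
        have h3 := h1 j hj1 hj2
        rw [Finset.sum_eq_single i] at h3
        · rw [hi] at h3
          have h4 : T.s (2 * r + 1) = - T.c 0 := by
            have := T.s_add (m := 0) (by omega)
            rw [zero_add] at this
            rw [this, Finset.sum_eq_single 0]
            · rw [zero_add, T.s_zero, mul_one]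
            · intro k hk hk0
              have := Finset.mem_range.mp hk
              rw [zero_add, T.s_eq_zero (by omega) this, mul_zero]
            · intro h; exact absurd (Finset.mem_range.mpr (by omega)) h
          rw [h4, smul_eq_zero, neg_eq_zero] at h3
          exact h3.resolve_left T.c_zero
        · intro k _ hki
          rcases lt_or_gt_of_ne (fun h => hki (Fin.ext h) : (k : ℕ) ≠ i) with h5 | h5
          · rw [T.s_eq_zero (by omega) (by omega), zero_smul]
          · rw [ih (2 * r + 1 - k) (by omega) (by omega) (by omega) k (by omega), smul_zero]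
        · intro h; exact absurd (Finset.mem_univ _) h
    intro i hi
    exact h2 (2 * r + 1 - i) (by omega) (by omega) i (by omega)
  -- linear algebra
  obtain ⟨C, hC⟩ := (N ⊓ P).exists_isCompl
  let P2 : Submodule D (Fin (2 * r + 1) → V) := P ⊓ C
  have hsup : (N ⊓ P) ⊔ P2 = P := by
    apply le_antisymm (sup_le inf_le_right inf_le_left)
    intro p hp
    have h1 : p ∈ (N ⊓ P) ⊔ C := by rw [hC.sup_eq_top]; exact Submodule.mem_top
    obtain ⟨a, ha, b, hb, hab⟩ := Submodule.mem_sup.mp h1
    refine Submodule.mem_sup.mpr ⟨a, ha, b, ⟨?_, hb⟩, hab⟩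
    have : b = p - a := by rw [← hab]; abel
    rw [this]
    exact P.sub_mem hp ha.2
  have hinf : (N ⊓ P) ⊓ P2 = ⊥ := by
    rw [eq_bot_iff, ← hC.inf_eq_bot]
    exact inf_le_inf_left _ inf_le_right
  have hdim := Submodule.finrank_sup_add_finrank_inf_eq (N ⊓ P) P2
  rw [hsup, hinf, finrank_bot, add_zero] at hdim
  let e := Module.finBasis D P2
  let t := finrank D P2
  let F : N →ₗ[D] (Fin t → D) :=
    { toFun := fun x i => B'.h x.1 (e i).1
      map_add' := fun a b => funext fun i => B'.add_left _ _ _
      map_smul' := fun a b => funext fun i => B'.smul_left _ _ _ }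
  have hrn := LinearMap.finrank_range_add_finrank_ker F
  have hrange : finrank D (LinearMap.range F) ≤ t := by
    refine (Submodule.finrank_le _).trans ?_
    rw [Module.finrank_fin_fun]
  have hker : ∀ x ∈ LinearMap.ker F, ∀ p ∈ P, B'.h x.1 p = 0 := by
    intro x hx p hp
    rw [← hsup] at hp
    obtain ⟨a, ha, b, hb, hab⟩ := Submodule.mem_sup.mp hp
    rw [← hab, B'.add_right, hN _ x.2 _ ha.1, zero_add]
    have h3 : b = ∑ i, e.repr ⟨b, hb⟩ i • (e i).1 := by
      have := congrArg (fun z : P2 => (z.1 : Fin (2 * r + 1) → V)) (e.sum_repr ⟨b, hb⟩)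
      simp only [Submodule.coe_sum, Submodule.coe_smul] at this
      exact this.symm
    rw [h3, B'.sum_right]
    apply Finset.sum_eq_zero
    intro i _
    rw [B'.smul_right]
    have h4 : B'.h x.1 (e i).1 = 0 := congrFun (LinearMap.mem_ker.mp hx) i
    rw [h4, zero_mul]
  let K : Submodule D (Fin (2 * r + 1) → V) :=
    { carrier := {x | x ∈ N ∧ ∀ p ∈ P, B'.h x p = 0}
      add_mem' := by
        rintro a b ⟨ha, ha'⟩ ⟨hb, hb'⟩
        exact ⟨N.add_mem ha hb, fun p hp => by rw [B'.add_left, ha' p hp, hb' p hp, add_zero]⟩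
      zero_mem' := ⟨N.zero_mem, fun p _ => B'.zero_left p⟩
      smul_mem' := by
        rintro c a ⟨ha, ha'⟩
        exact ⟨N.smul_mem c ha, fun p hp => by rw [B'.smul_left, ha' p hp, mul_zero]⟩ }
  have hkK : finrank D (LinearMap.ker F) ≤ finrank D K := by
    let g : LinearMap.ker F →ₗ[D] K :=
      { toFun := fun x => ⟨x.1.1, x.1.2, hker _ x.2⟩
        map_add' := fun a b => rfl
        map_smul' := fun a b => rfl }
    apply LinearMap.finrank_le_finrank_of_injective (f := g)
    intro a b hab
    apply Subtype.ext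
    apply Subtype.ext
    exact congrArg (fun z : K => (z.1 : Fin (2 * r + 1) → V)) hab
  let G : K →ₗ[D] V :=
    { toFun := fun x => x.1 i0
      map_add' := fun a b => rfl
      map_smul' := fun a b => rfl }
  have hrn2 := LinearMap.finrank_range_add_finrank_ker G
  have hkG : finrank D (LinearMap.ker G) ≤ finrank D ↥(N ⊓ P) := by
    let g : LinearMap.ker G →ₗ[D] ↥(N ⊓ P) :=
      { toFun := fun x => ⟨x.1.1, x.1.2.1, LinearMap.mem_ker.mp x.2, hperp _ x.1.2.2⟩
        map_add' := fun a b => rfl
        map_smul' := fun a b => rfl }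
    apply LinearMap.finrank_le_finrank_of_injective (f := g)
    intro a b hab
    apply Subtype.ext
    apply Subtype.ext
    exact congrArg (fun z : ↥(N ⊓ P) => (z.1 : Fin (2 * r + 1) → V)) hab
  refine ⟨LinearMap.range G, ?_, ?_⟩
  · rw [hNq] at hrn
    have h5 : q ≤ r * finrank D V + finrank D (LinearMap.range G) := by omega
    have h6 : (2 * r + 1) * finrank D V = 2 * (r * finrank D V) + finrank D V := by ring
    omega
  · rintro _ ⟨x, rfl⟩ _ ⟨y, rfl⟩
    have h1 := hN _ x.2.1 _ y.2.1
    have hx := hperp _ x.2.2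
    have hy := hperp _ y.2.2
    rw [← h1]
    change _ = ∑ i : Fin (2 * r + 1), ∑ j : Fin (2 * r + 1), T.s (i + j) *
      B.h (x.1 i) (y.1 j)
    rw [Finset.sum_eq_single i0, Finset.sum_eq_single i0]
    · change _ = T.s 0 * B.h (x.1 i0) (y.1 i0)
      rw [T.s_zero, one_mul]
      rfl
    · intro j _ hj
      rcases lt_or_ge r (j : ℕ) with h2 | h2
      · rw [hy j h2, B.zero_right, mul_zero]
      · have h3 : (j : ℕ) ≠ 0 := fun h => hj (Fin.ext h)
        have : T.s ((i0 : ℕ) + j) = 0 := T.s_eq_zero (by omega) (by simp [i0]; omega)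
        rw [this, zero_mul]
    · intro h; exact absurd (Finset.mem_univ _) h
    · intro i _ hi
      apply Finset.sum_eq_zero
      intro j _
      rcases lt_or_ge r (i : ℕ) with h2 | h2
      · rw [hx i h2, B.zero_left, mul_zero]
      rcases lt_or_ge r (j : ℕ) with h4 | h4
      · rw [hy j h4, B.zero_right, mul_zero]
      have h3 : (i : ℕ) ≠ 0 := fun h => hi (Fin.ext h)
      rw [T.s_eq_zero (by omega) (by omega), zero_mul]
    · intro h; exact absurd (Finset.mem_univ _) h

end TD

end Vale.Agent.P011.T2
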