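import Vale.Agent.P011.H402.Main

/-!
Changing the involution `star` to `x ↦ a * star x * a⁻¹` and the form `H` to `a * H`.
-/

set_option linter.unusedSectionVars false

open Matrix Module

namespace Vale.Agent.P011.T2

open Vale.Agent.P011S Vale.Agent.P011.H402

/-- The involution `x ↦ a * star x * a⁻¹`. -/
@[reducible] def twist {D : Type} [DivisionRing D] [StarRing D] (a : D) (ha0 : a ≠ 0)
    (ha : star a = a) : StarRing D where
  star x := a * star x * a⁻¹
  star_involutive x := by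
    change a * star (a * star x * a⁻¹) * a⁻¹ = x
    rw [star_mul, star_mul, star_star, star_inv₀, ha]
    calc a * (a⁻¹ * (x * a)) * a⁻¹ = (a * a⁻¹) * x * (a * a⁻¹) := by simp only [mul_assoc]
      _ = x := by rw [mul_inv_cancel₀ ha0, one_mul, mul_one]
  star_mul x y := by
    change a * star (x * y) * a⁻¹ = (a * star y * a⁻¹) * (a * star x * a⁻¹)
    rw [star_mul]
    calc a * (star y * star x) * a⁻¹ = a * star y * 1 * star x * a⁻¹ := by
          simp only [mul_assoc, one_mul]
      _ = a * star y * (a⁻¹ * a) * star x * a⁻¹ := by rw [inv_mul_cancel₀ ha0]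
      _ = _ := by simp only [mul_assoc]
  star_add x y := by
    change a * star (x + y) * a⁻¹ = a * star x * a⁻¹ + a * star y * a⁻¹
    rw [star_add, mul_add, add_mul]

section

variable {D : Type} [DivisionRing D] [StarRing D] (a : D) (ha0 : a ≠ 0) (ha : star a = a)

theorem twist_star (x : D) : (twist a ha0 ha).star x = a * star x * a⁻¹ := rfl

theorem twist_module {K : Type} [Field K] [StarRing K] [Algebra K D] [StarModule K D] :
    @StarModule K D _ (twist a ha0 ha).toStar _ :=
  @StarModule.mk K D _ (twist a ha0 ha).toStar _ (fun k x => by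
    change a * star (k • x) * a⁻¹ = star k • (a * star x * a⁻¹)
    rw [star_smul, mul_smul_comm, smul_mul_assoc])

/-- the new Gram matrix -/
def tw {m n : Type} (H : Matrix m n D) : Matrix m n D := Matrix.of fun i j => a * H i j

theorem tw_apply {m n : Type} (H : Matrix m n D) (i : m) (j : n) : tw a H i j = a * H i j := rfl

/-- the new conjugate transpose -/
theorem twist_conj {m n : Type} [Fintype m] [Fintype n] (g : Matrix m n D) (i : n) (j : m) :
    (@Matrix.conjTranspose m n D (twist a ha0 ha).toStar g) i j = a * gᴴ i j * a⁻¹ := rfl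

theorem conj_tw_mul {m n l : Type} [Fintype m] [Fintype n] [Fintype l]
    (g : Matrix m n D) (H : Matrix m l D) :
    (@Matrix.conjTranspose m n D (twist a ha0 ha).toStar g) * tw a H = tw a (gᴴ * H) := by
  ext i j
  rw [Matrix.mul_apply, tw_apply, Matrix.mul_apply, Finset.mul_sum]
  refine Finset.sum_congr rfl fun k _ => ?_
  rw [twist_conj, tw_apply]
  calc a * gᴴ i k * a⁻¹ * (a * H k j) = a * gᴴ i k * (a⁻¹ * a) * H k j := by
        simp only [mul_assoc]
    _ = _ := by rw [inv_mul_cancel₀ ha0, mul_one, mul_assoc]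

theorem tw_mul {m n l : Type} [Fintype n] (H : Matrix m n D) (g : Matrix n l D) :
    tw a H * g = tw a (H * g) := by
  ext i j
  rw [Matrix.mul_apply, tw_apply, Matrix.mul_apply, Finset.mul_sum]
  refine Finset.sum_congr rfl fun k _ => ?_
  rw [tw_apply, mul_assoc]

include ha0 in
theorem tw_inj {m n : Type} {G H : Matrix m n D} (h : tw a G = tw a H) : G = H := by
  ext i j
  have h1 := congrFun (congrFun h i) j
  exact mul_left_cancel₀ ha0 h1

theorem UH_twist {μ : Type} [Fintype μ] [DecidableEq μ] (H : Matrix μ μ D) :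
    @UH D _ (twist a ha0 ha) μ _ _ (tw a H) = UH H := by
  ext g
  change (@Matrix.conjTranspose μ μ D (twist a ha0 ha).toStar (g : Matrix μ μ D)) * tw a H *
    (g : Matrix μ μ D) = tw a H ↔ (g : Matrix μ μ D)ᴴ * H * (g : Matrix μ μ D) = H
  rw [conj_tw_mul, tw_mul]
  exact ⟨fun h => tw_inj a ha0 h, fun h => by rw [h]⟩

theorem SU_twist {K F : Type} [Field K] [Algebra K D] [Field F] [Algebra K F] {p : ℕ}
    (f : D →ₐ[K] Matrix (Fin p) (Fin p) F) {μ : Type} [Fintype μ] [DecidableEq μ]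
    (H : Matrix μ μ D) :
    @SU K D F _ _ (twist a ha0 ha) _ _ _ p f μ _ _ (tw a H) = SU f H := by
  unfold SU
  rw [UH_twist]

theorem value_twist {m : ℕ} (H : Matrix (Fin m) (Fin m) D) (u v : Fin m → D) :
    (@star (Fin m → D) (@Pi.instStarForall (Fin m) (fun _ => D) (fun _ => (twist a ha0 ha).toStar)) u)
      ⬝ᵥ (tw a H *ᵥ v) = a * (star u ⬝ᵥ (H *ᵥ v)) := by
  rw [dotProduct, dotProduct, Finset.mul_sum]
  refine Finset.sum_congr rfl fun i _ => ?_
  change (a * star (u i) * a⁻¹) * (tw a H *ᵥ v) i = a * (star (u i) * (H *ᵥ v) i)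
  have h1 : (tw a H *ᵥ v) i = a * (H *ᵥ v) i := by
    rw [Matrix.mulVec, Matrix.mulVec, dotProduct, dotProduct, Finset.mul_sum]
    refine Finset.sum_congr rfl fun j _ => ?_
    rw [tw_apply, mul_assoc]
  rw [h1]
  calc (a * star (u i) * a⁻¹) * (a * (H *ᵥ v) i) = a * star (u i) * (a⁻¹ * a) * (H *ᵥ v) i := by
        simp only [mul_assoc]
    _ = _ := by rw [inv_mul_cancel₀ ha0, mul_one, mul_assoc]

theorem anis_twist {m : ℕ} {H : Matrix (Fin m) (Fin m) D} (h : IsAnisotropicForm H) :
    @IsAnisotropicForm D _ (twist a ha0 ha) m (tw a H) := by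
  refine ⟨?_, fun v hv => ?_⟩
  · ext i j
    rw [twist_conj, Matrix.conjTranspose_apply, tw_apply, tw_apply, star_mul, ha]
    have h1 : star (H j i) = H i j := by
      have := congrFun (congrFun h.1 i) j
      rwa [Matrix.conjTranspose_apply] at this
    rw [h1]
    calc a * (H i j * a) * a⁻¹ = a * H i j * (a * a⁻¹) := by simp only [mul_assoc]
      _ = _ := by rw [mul_inv_cancel₀ ha0, mul_one]
  · rw [value_twist] at hv
    rcases mul_eq_zero.mp hv with h1 | h1
    · exact absurd h1 ha0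
    · exact h.2 v h1

theorem sigma_twist {K F : Type} [Field K] [Algebra K D] [Field F] [Algebra K F] {p : ℕ}
    (f : D →ₐ[K] Matrix (Fin p) (Fin p) F) :
    @SigmaPrime K D F _ _ (twist a ha0 ha) _ _ _ p f = SigmaPrime f := by
  ext Z
  change (Z ≠ 0 ∧ (f (a * star Z * a⁻¹)).det = (f Z).det) ↔
    (Z ≠ 0 ∧ (f (star Z)).det = (f Z).det)
  have h1 : (f (a * star Z * a⁻¹)).det = (f (star Z)).det := by
    rw [map_mul, map_mul, det_mul, det_mul]
    have h2 : (f a).det * (f a⁻¹).det = 1 := by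
      rw [← det_mul, ← map_mul, mul_inv_cancel₀ ha0, map_one, det_one]
    linear_combination (f (star Z)).det * h2
  rw [h1]

end

/-- The conclusion on a normal subgroup, in terms of the groups only. -/
def Concl {X D : Type} [Group X] [Ring D] (U G : Subgroup X) (Sig : Set D) (sy : D → Prop)
    (N : Subgroup G) [N.Normal] (P : Prop) : Prop :=
  N ≤ Subgroup.center G ∨
    ((∀ a ∈ U, ∀ b ∈ U, ∃ n ∈ N, (n : X) = a * b * a⁻¹ * b⁻¹) ∧
      (∃ π : D → G ⧸ N, (∀ Z ∈ Sig, ∀ W ∈ Sig, π (Z * W) = π Z * π W) ∧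
        (∀ g : G ⧸ N, ∃ Z ∈ Sig, π Z = g) ∧ (∀ s : D, s ≠ 0 → sy s → π s = 1)) ∧
      (P → N = ⊤))

theorem concl_congr {X D : Type} [Group X] [Ring D] {U U' G G' : Subgroup X} (hU : U' = U)
    (hG : G' = G) {Sig Sig' : Set D} (hS : Sig' = Sig) (sy : D → Prop) {P : Prop}
    (h : ∀ (N : Subgroup G') [N.Normal], Concl U' G' Sig' sy N P) (N : Subgroup G) [N.Normal] :
    Concl U G Sig sy N P := by
  subst hU
  subst hG
  subst hS
  exact h N

/-- Transport of the structure theorem for normal subgroups. -/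
theorem normal_twist {K D F : Type} [Field K] [StarRing K]
    [DivisionRing D] [StarRing D] [Algebra K D] [Field F] [Algebra K F] {p : ℕ}
    (f : D →ₐ[K] Matrix (Fin p) (Fin p) F) {m : ℕ} (H : Matrix (Fin m) (Fin m) D)
    (a : D) (ha0 : a ≠ 0) (ha : star a = a)
    (h : ∀ (N : Subgroup (@SU K D F _ _ (twist a ha0 ha) _ _ _ p f (Fin m) _ _ (tw a H)))
      [N.Normal], N ≤ Subgroup.center _ ∨
      (@ContainsCommutators K D F _ _ (twist a ha0 ha) _ _ _ p f m (tw a H) N ∧
        @IsQuotientOfSUK K D F _ _ (twist a ha0 ha) _ _ _ p f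
          (_ ⧸ N) _ ∧ (Squarefree p → N = ⊤)))
    (N : Subgroup (SU f H)) [N.Normal] :
    N ≤ Subgroup.center (SU f H) ∨
      (ContainsCommutators f H N ∧ IsQuotientOfSUK f (SU f H ⧸ N) ∧
        (Squarefree p → N = ⊤)) := by
  have h1 : Concl (UH H) (SU f H) (SigmaPrime f) (fun s => a * star s * a⁻¹ = s) N
      (Squarefree p) :=
    concl_congr (UH_twist a ha0 ha H) (SU_twist a ha0 ha f H) (sigma_twist a ha0 ha f) _ h N
  rcases h1 with h1 | ⟨h1, ⟨π, h2, h3, h4⟩, h5⟩
  · exact Or.inl h1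
  · refine Or.inr ⟨h1, ⟨π, h2, h3, fun s hs0 hs => ?_⟩, h5⟩
    have hmem : ∀ Z : D, Z ≠ 0 → a * star Z * a⁻¹ = Z → Z ∈ SigmaPrime f := by
      intro Z hZ0 hZ
      rw [← sigma_twist a ha0 ha f]
      refine ⟨hZ0, ?_⟩
      change (f (a * star Z * a⁻¹)).det = _
      rw [hZ]
    have hs1 : a * star (s * a⁻¹) * a⁻¹ = s * a⁻¹ := by
      rw [star_mul, star_inv₀, ha, hs, ← mul_assoc, mul_inv_cancel₀ ha0, one_mul]
    have ha1 : a * star a * a⁻¹ = a := by
      rw [ha, mul_assoc, mul_inv_cancel₀ ha0, mul_one]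
    have hs2 : s * a⁻¹ ≠ 0 := mul_ne_zero hs0 (inv_ne_zero ha0)
    have h6 := h2 _ (hmem _ hs2 hs1) _ (hmem _ ha0 ha1)
    rw [mul_assoc, inv_mul_cancel₀ ha0, mul_one, h4 _ hs2 hs1, h4 _ ha0 ha1, mul_one] at h6
    exact h6

/-- The structure theorem, for a form which satisfies the hypotheses after a change of the
involution. -/
theorem normal_all_twist {K D F : Type} [Field K] [NumberField K] [StarRing K]
    [DivisionRing D] [StarRing D] [CharZero D] [Algebra K D] [StarModule K D]
    [FiniteDimensional K D] [Algebra.IsCentral K D] [Field F] [Algebra K F]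
    (hK : ∃ k : K, star k ≠ k) {p : ℕ} (hdeg : Module.finrank K D = p ^ 2)
    (f : D →ₐ[K] Matrix (Fin p) (Fin p) F) {m : ℕ} (H : Matrix (Fin m) (Fin m) D)
    (hH : IsAnisotropicForm H) (a : D) (ha0 : a ≠ 0) (ha : star a = a)
    (hpos : @IsFormallyPositive D _ (twist a ha0 ha))
    (hM : @IsTwoUniversal D _ (twist a ha0 ha) m (tw a H) ∨
      (3 ≤ m ∧ @IsUniversal D _ (twist a ha0 ha) m (tw a H) 2 ∧
        @HasStableValues D _ (twist a ha0 ha) m (tw a H)))
    (N : Subgroup (SU f H)) [N.Normal] :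
    N ≤ Subgroup.center (SU f H) ∨
      (ContainsCommutators f H N ∧ IsQuotientOfSUK f (SU f H ⧸ N) ∧
        (Squarefree p → N = ⊤)) := by
  refine normal_twist f H a ha0 ha (fun N' hN' => ?_) N
  exact @normal_all p K D F _ _ _ _ (twist a ha0 ha) _ _ (twist_module a ha0 ha) _ _ _ _ hK hpos
    hdeg f m (tw a H) (anis_twist a ha0 ha hH) (Or.inr hM) N' hN'

end Vale.Agent.P011.T2
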