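import Vale.Agent.P011.T2.Transport
import Vale.Agent.P011.H897.Comb

/-!
Transport of all the clauses of the structure theorem.
-/

set_option linter.unusedSectionVars false

open Matrix Module
open scoped commutatorElement

namespace Vale.Agent.P011.T2

open Vale.Agent.P011S Vale.Agent.P011.H402

section abstract_

variable {X D : Type} [Group X] [Ring D]

/-- The conditions on a large subgroup, in terms of the groups only. -/
def Large (U G : Subgroup X) (Sig : Set D) (sy : D → Prop) (P : Prop) (S : Subgroup G) : Prop :=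
  ∃ _ : S.Normal, (∀ a ∈ U, ∀ b ∈ U, ∃ n ∈ S, (n : X) = a * b * a⁻¹ * b⁻¹) ∧
    (∃ π : D → G ⧸ S, (∀ Z ∈ Sig, ∀ W ∈ Sig, π (Z * W) = π Z * π W) ∧
      (∀ g : G ⧸ S, ∃ Z ∈ Sig, π Z = g) ∧ (∀ s : D, s ≠ 0 → sy s → π s = 1)) ∧
    (P → S = ⊤)

/-- All clauses, in terms of the groups only. -/
def Clauses (U G : Subgroup X) (Sig : Set D) (sy : D → Prop) (P : Prop) (cs : X → Prop) : Prop :=
  (∀ (N : Subgroup G) [N.Normal],
      N ≤ Subgroup.center G ∨
        ((∀ a ∈ U, ∀ b ∈ U, ∃ n ∈ N, (n : X) = a * b * a⁻¹ * b⁻¹) ∧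
          (∃ π : D → G ⧸ N, (∀ Z ∈ Sig, ∀ W ∈ Sig, π (Z * W) = π Z * π W) ∧
            (∀ g : G ⧸ N, ∃ Z ∈ Sig, π Z = g) ∧ (∀ s : D, s ≠ 0 → sy s → π s = 1)) ∧
          (P → N = ⊤))) ∧
    (∀ S T : Subgroup G, IsReached T → ¬ T ≤ Subgroup.center G →
      (∀ t ∈ T, ∀ s ∈ S, t * s * t⁻¹ ∈ S) →
      S ≤ Subgroup.center G ∨ Large U G Sig sy P S) ∧
    (∀ S : Subgroup G, S.index ≠ 0 → Large U G Sig sy P S) ∧
    ((∀ S : Subgroup X, S ≤ U →
        (∀ e ∈ ⁅U, U⁆, ∀ g ∈ S, e * g * e⁻¹ ∈ S) → (∀ g ∈ S, cs g) ∨ ⁅U, U⁆ ≤ S) ∧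
      (∀ G' : Subgroup X, ⁅U, U⁆ ≤ G' → G' ≤ U →
        ∀ S : Subgroup G', IsReached S →
          (∀ g ∈ S, cs (g : X)) ∨ ⁅U, U⁆ ≤ S.map G'.subtype)) ∧
    IsQuasisimple ⁅U, U⁆ ∧ (P → G = ⁅U, U⁆)

theorem clauses_congr {U U' G G' : Subgroup X} (hU : U' = U)
    (hG : G' = G) {Sig Sig' : Set D} (hS : Sig' = Sig) {sy : D → Prop} {P : Prop}
    {cs : X → Prop} (h : Clauses U' G' Sig' sy P cs) : Clauses U G Sig sy P cs := by
  subst hU
  subst hG
  subst hS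
  exact h

theorem large_sy {U G : Subgroup X} {Sig : Set D} {sy sy' : D → Prop} {P : Prop}
    (h : ∀ (Q : Type) [Group Q] (π : D → Q), (∀ Z ∈ Sig, ∀ W ∈ Sig, π (Z * W) = π Z * π W) →
      (∀ s : D, s ≠ 0 → sy' s → π s = 1) → ∀ s : D, s ≠ 0 → sy s → π s = 1)
    {S : Subgroup G} (hS : Large U G Sig sy' P S) : Large U G Sig sy P S := by
  obtain ⟨hn, h1, ⟨π, h2, h3, h4⟩, h5⟩ := hS
  exact ⟨hn, h1, ⟨π, h2, h3, h _ π h2 h4⟩, h5⟩

theorem clauses_sy {U G : Subgroup X} {Sig : Set D} {sy sy' : D → Prop} {P : Prop}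
    {cs : X → Prop}
    (h : ∀ (Q : Type) [Group Q] (π : D → Q), (∀ Z ∈ Sig, ∀ W ∈ Sig, π (Z * W) = π Z * π W) →
      (∀ s : D, s ≠ 0 → sy' s → π s = 1) → ∀ s : D, s ≠ 0 → sy s → π s = 1)
    (hc : Clauses U G Sig sy' P cs) : Clauses U G Sig sy P cs := by
  obtain ⟨c1, c2, c3, c4, c5, c6⟩ := hc
  refine ⟨fun N _ => ?_, fun S T hT hT' hST => ?_, fun S hS => large_sy h (c3 S hS), c4, c5, c6⟩
  · rcases c1 N with h1 | ⟨h1, ⟨π, h2, h3, h4⟩, h5⟩
    · exact Or.inl h1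
    · exact Or.inr ⟨h1, ⟨π, h2, h3, h _ π h2 h4⟩, h5⟩
  · rcases c2 S T hT hT' hST with h1 | h1
    · exact Or.inl h1
    · exact Or.inr (large_sy h h1)

end abstract_

/-- the symmetric elements for the new involution generate the old ones -/
theorem kill_twist {K D F : Type} [Field K] [DivisionRing D] [StarRing D] [Algebra K D]
    [Field F] [Algebra K F] {p : ℕ} (f : D →ₐ[K] Matrix (Fin p) (Fin p) F)
    (a : D) (ha0 : a ≠ 0) (ha : star a = a) {Q : Type} [Group Q] (π : D → Q)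
    (h2 : ∀ Z ∈ SigmaPrime f, ∀ W ∈ SigmaPrime f, π (Z * W) = π Z * π W)
    (h4 : ∀ s : D, s ≠ 0 → a * star s * a⁻¹ = s → π s = 1) (s : D) (hs0 : s ≠ 0)
    (hs : star s = s) : π s = 1 := by
  have hmem : ∀ Z : D, Z ≠ 0 → a * star Z * a⁻¹ = Z → Z ∈ SigmaPrime f := by
    intro Z hZ0 hZ
    rw [← sigma_twist a ha0 ha f]
    refine ⟨hZ0, ?_⟩
    change (f (a * star Z * a⁻¹)).det = _
    rw [hZ]
  have hs1 : a * star (s * a⁻¹) * a⁻¹ = s * a⁻¹ := by
    rw [star_mul, star_inv₀, ha, hs, ← mul_assoc, mul_inv_cancel₀ ha0, one_mul]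
  have ha1 : a * star a * a⁻¹ = a := by
    rw [ha, mul_assoc, mul_inv_cancel₀ ha0, mul_one]
  have hs2 : s * a⁻¹ ≠ 0 := mul_ne_zero hs0 (inv_ne_zero ha0)
  have h6 := h2 _ (hmem _ hs2 hs1) _ (hmem _ ha0 ha1)
  rw [mul_assoc, inv_mul_cancel₀ ha0, mul_one, h4 _ hs2 hs1, h4 _ ha0 ha1, mul_one] at h6
  exact h6

/-- Transport of all clauses. -/
theorem clauses_twist {K D F : Type} [Field K] [StarRing K]
    [DivisionRing D] [StarRing D] [Algebra K D] [Field F] [Algebra K F] {p : ℕ}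
    (f : D →ₐ[K] Matrix (Fin p) (Fin p) F) {m : ℕ} (H : Matrix (Fin m) (Fin m) D)
    (a : D) (ha0 : a ≠ 0) (ha : star a = a)
    (h : @AllClauses K D F _ _ (twist a ha0 ha) _ _ _ p f m (tw a H)) : AllClauses f H := by
  have h1 : Clauses (UH H) (SU f H) (SigmaPrime f) (fun s => a * star s * a⁻¹ = s)
      (Squarefree p) IsCentralScalar :=
    clauses_congr (UH_twist a ha0 ha H) (SU_twist a ha0 ha f H) (sigma_twist a ha0 ha f) h
  have h2 : Clauses (UH H) (SU f H) (SigmaPrime f) (fun s => star s = s)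
      (Squarefree p) IsCentralScalar :=
    clauses_sy (fun Q _ π hπ hk s hs0 hs => kill_twist f a ha0 ha π hπ hk s hs0 hs) h1
  exact h2

/-- The structure theorem, for a form which satisfies the hypotheses after a change of the
involution. -/
theorem all_clauses_twist {K D F : Type} [Field K] [NumberField K] [StarRing K]
    [DivisionRing D] [StarRing D] [CharZero D] [Algebra K D] [StarModule K D]
    [FiniteDimensional K D] [Algebra.IsCentral K D] [Field F] [Algebra K F]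
    (hK : ∃ k : K, star k ≠ k) {p : ℕ} (hdeg : Module.finrank K D = p ^ 2)
    (f : D →ₐ[K] Matrix (Fin p) (Fin p) F) {m : ℕ} (H : Matrix (Fin m) (Fin m) D)
    (hH : IsAnisotropicForm H) (a : D) (ha0 : a ≠ 0) (ha : star a = a)
    (hpos : @IsFormallyPositive D _ (twist a ha0 ha))
    (hM : @IsTwoUniversal D _ (twist a ha0 ha) m (tw a H) ∨
      (3 ≤ m ∧ @IsUniversal D _ (twist a ha0 ha) m (tw a H) 2 ∧
        @HasStableValues D _ (twist a ha0 ha) m (tw a H))) : AllClauses f H := by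
  refine clauses_twist f H a ha0 ha ?_
  exact @all_clauses p K D F _ _ _ _ (twist a ha0 ha) _ _ (twist_module a ha0 ha) _ _ _ _ hK hpos
    hdeg f m (tw a H) (anis_twist a ha0 ha hH) (Or.inr hM)

end Vale.Agent.P011.T2
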