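import Vale.Agent.P011.T2.Rep2

/-!
Self-adjoint maximal subfields of a division algebra with involution of the second kind, and the
transfer data attached to them.
-/

open Module Polynomial

set_option linter.unusedSectionVars false

namespace Vale.Agent.P011.T2

section dc

variable {K D : Type} [Field K] [DivisionRing D] [Algebra K D] [FiniteDimensional K D]
  [Algebra.IsCentral K D]

theorem mem_base {x : D} (h : ∀ y, x * y = y * x) : ∃ k : K, algebraMap K D k = x := by
  have h1 : x ∈ Subalgebra.center K D := Subalgebra.mem_center_iff.mpr fun y => (h y).symm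
  rw [Algebra.IsCentral.center_eq_bot] at h1
  exact Algebra.mem_bot.mp h1

/-- The maps `x ↦ ∑ a i * x * t i` determine the coefficients `a i`. -/
theorem sandwich_inj {ι : Type} [Fintype ι] (t : ι → D) (ht : LinearIndependent K t)
    (a : ι → D) (ha : ∀ x, ∑ i, a i * x * t i = 0) : a = 0 := by
  classical
  have key : ∀ (m : ℕ) (a : ι → D), (Finset.univ.filter fun j => a j ≠ 0).card = m →
      (∀ x, ∑ i, a i * x * t i = 0) → a = 0 := by
    intro m
    induction m using Nat.strong_induction_on with
    | _ m ih =>
      intro a hm ha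
      by_contra hne
      obtain ⟨j0, hj0⟩ : ∃ j, a j ≠ 0 := by
        by_contra h
        push Not at h
        exact hne (funext h)
      let a' : ι → D := fun j => (a j0)⁻¹ * a j
      have ha'j0 : a' j0 = 1 := inv_mul_cancel₀ hj0
      have ha' : ∀ x, ∑ i, a' i * x * t i = 0 := by
        intro x
        have : ∑ i, a' i * x * t i = (a j0)⁻¹ * ∑ i, a i * x * t i := by
          rw [Finset.mul_sum]
          exact Finset.sum_congr rfl fun i _ => by simp only [a', mul_assoc]
        rw [this, ha, mul_zero]
      have hcomm : ∀ y i, a' i * y = y * a' i := by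
        intro y
        have h0 : (fun i => a' i * y - y * a' i) = 0 := by
          apply ih _ _ _ rfl
          · intro x
            have : ∑ i, (a' i * y - y * a' i) * x * t i =
                ∑ i, a' i * (y * x) * t i - y * ∑ i, a' i * x * t i := by
              rw [Finset.mul_sum, ← Finset.sum_sub_distrib]
              exact Finset.sum_congr rfl fun i _ => by simp only [sub_mul, mul_assoc]
            rw [this, ha', ha', mul_zero, sub_zero]
          · rw [← hm]
            apply Finset.card_lt_card
            rw [Finset.ssubset_iff_of_subset]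
            · refine ⟨j0, by simpa using hj0, ?_⟩
              simp [ha'j0]
            · intro j hj
              simp only [Finset.mem_filter, Finset.mem_univ, true_and] at hj ⊢
              intro h0
              apply hj
              simp [a', h0]
        intro i
        exact sub_eq_zero.mp (congrFun h0 i)
      have h1 : ∀ i, ∃ k : K, algebraMap K D k = a' i := fun i => mem_base fun y => hcomm y i
      choose k hk using h1
      have h2 : ∑ i, k i • t i = 0 := by
        rw [← ha' 1]
        exact Finset.sum_congr rfl fun i _ => by rw [mul_one, ← hk, Algebra.smul_def]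
      have h3 := Fintype.linearIndependent_iff.mp ht k h2 j0
      rw [← hk, h3, map_zero] at ha'j0
      exact zero_ne_one ha'j0
  exact key _ a rfl ha

/-- The `K`-linear map `x ↦ ∑ a i * x * t i`. -/
def sand {ι : Type} [Fintype ι] (t : ι → D) : (ι → D) →ₗ[K] (D →ₗ[K] D) where
  toFun a :=
    { toFun := fun x => ∑ i, a i * x * t i
      map_add' := fun x y => by
        rw [← Finset.sum_add_distrib]
        exact Finset.sum_congr rfl fun i _ => by rw [mul_add, add_mul]
      map_smul' := fun k x => by
        rw [RingHom.id_apply, Finset.smul_sum]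
        exact Finset.sum_congr rfl fun i _ => by rw [mul_smul_comm, smul_mul_assoc] }
  map_add' a b := by
    ext x
    change ∑ i, (a i + b i) * x * t i = ∑ i, a i * x * t i + ∑ i, b i * x * t i
    rw [← Finset.sum_add_distrib]
    exact Finset.sum_congr rfl fun i _ => by rw [add_mul, add_mul]
  map_smul' k a := by
    ext x
    change ∑ i, (k • a i) * x * t i = k • ∑ i, a i * x * t i
    rw [Finset.smul_sum]
    exact Finset.sum_congr rfl fun i _ => by rw [smul_mul_assoc, smul_mul_assoc]

theorem sand_apply {ι : Type} [Fintype ι] (t a : ι → D) (x : D) :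
    sand (K := K) t a x = ∑ i, a i * x * t i := rfl

theorem sandwich_surj {ι : Type} [Fintype ι] (t : Basis ι K D) (f : D →ₗ[K] D) :
    ∃ a : ι → D, ∀ x, f x = ∑ i, a i * x * t i := by
  have h1 : Function.Injective (sand (K := K) (t : ι → D)) := by
    rw [← LinearMap.ker_eq_bot, LinearMap.ker_eq_bot']
    intro a ha
    apply sandwich_inj (K := K) t t.linearIndependent a
    intro x
    rw [← sand_apply (K := K), ha]
    rfl
  have h2 : finrank K (ι → D) = finrank K (D →ₗ[K] D) := by
    rw [Module.finrank_linearMap, Module.finrank_pi_fintype, Finset.sum_const, Finset.card_univ,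
      smul_eq_mul, Module.finrank_eq_card_basis t]
  obtain ⟨a, ha⟩ := (LinearMap.injective_iff_surjective_of_finrank_eq_finrank h2).mp h1 f
  exact ⟨a, fun x => by rw [← ha]; rfl⟩

/-- The double centralizer theorem, dimension count. -/
theorem finrank_centralizer (E : Subalgebra K D) :
    finrank K E * finrank K (Subalgebra.centralizer K (E : Set D)) = finrank K D := by
  let _ : DivisionRing E := divisionRingOfFiniteDimensional K E
  let ι := Fin (finrank K D)
  let t : Basis ι K D := Module.finBasis K D
  let C := Subalgebra.centralizer K (E : Set D)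
  have hC : ∀ c : C, ∀ e : E, (e : D) * c = c * e := fun c e =>
    Subalgebra.mem_centralizer_iff K |>.mp c.2 e e.2
  let Φ : (ι → C) →ₗ[K] (D →ₗ[E] D) :=
    { toFun := fun a =>
        { toFun := fun x => ∑ i, (a i : D) * x * t i
          map_add' := fun x y => by
            rw [← Finset.sum_add_distrib]
            exact Finset.sum_congr rfl fun i _ => by rw [mul_add, add_mul]
          map_smul' := fun k x => by
            rw [RingHom.id_apply]
            change ∑ i, (a i : D) * ((k : D) * x) * t i = (k : D) * ∑ i, (a i : D) * x * t i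
            rw [Finset.mul_sum]
            exact Finset.sum_congr rfl fun i _ => by
              rw [← mul_assoc (a i : D), ← hC]; simp only [mul_assoc] }
      map_add' := fun a b => by
        ext x
        change ∑ i, ((a i : D) + b i) * x * t i = ∑ i, a i * x * t i + ∑ i, b i * x * t i
        rw [← Finset.sum_add_distrib]
        exact Finset.sum_congr rfl fun i _ => by rw [add_mul, add_mul]
      map_smul' := fun k a => by
        ext x
        change ∑ i, (k • (a i : D)) * x * t i = k • ∑ i, a i * x * t i
        rw [Finset.smul_sum]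
        exact Finset.sum_congr rfl fun i _ => by rw [smul_mul_assoc, smul_mul_assoc] }
  have hΦ : ∀ a x, Φ a x = ∑ i, (a i : D) * x * t i := fun _ _ => rfl
  have hinj : Function.Injective Φ := by
    rw [← LinearMap.ker_eq_bot, LinearMap.ker_eq_bot']
    intro a ha
    have := sandwich_inj (K := K) t t.linearIndependent (fun i => (a i : D)) (by
      intro x
      rw [← hΦ, ha]
      rfl)
    funext i
    exact Subtype.ext (congrFun this i)
  have hsurj : Function.Surjective Φ := by
    intro f
    obtain ⟨a, ha⟩ := sandwich_surj t (f.restrictScalars K)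
    have ha' : ∀ x, f x = ∑ i, a i * x * t i := ha
    have hmem : ∀ i, a i ∈ C := by
      intro i
      rw [Subalgebra.mem_centralizer_iff]
      intro e he
      have := sandwich_inj (K := K) t t.linearIndependent (fun i => e * a i - a i * e) (by
        intro x
        have h1 : f ((⟨e, he⟩ : E) • x) = (⟨e, he⟩ : E) • f x := f.map_smul _ _
        have h2 : f (e * x) = e * f x := h1
        rw [ha', ha', Finset.mul_sum] at h2
        have h3 : ∑ i, (e * a i - a i * e) * x * t i =
            ∑ i, e * (a i * x * t i) - ∑ i, a i * (e * x) * t i := by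
          rw [← Finset.sum_sub_distrib]
          exact Finset.sum_congr rfl fun i _ => by simp only [sub_mul, mul_assoc]
        rw [h3, h2, sub_self])
      exact sub_eq_zero.mp (congrFun this i)
    refine ⟨fun i => ⟨a i, hmem i⟩, ?_⟩
    ext x
    rw [hΦ, ha']
  have h1 : finrank K (ι → C) = finrank K (D →ₗ[E] D) :=
    (LinearEquiv.ofBijective Φ ⟨hinj, hsurj⟩).finrank_eq
  have : Module.Finite E D := Module.Finite.of_restrictScalars_finite K E D
  rw [Module.finrank_linearMap, Module.finrank_pi_fintype, Finset.sum_const, Finset.card_univ,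
    smul_eq_mul, Fintype.card_fin, mul_comm] at h1
  have hpos : 0 < finrank K D := Module.finrank_pos
  have h2 : finrank K C = finrank E D := Nat.eq_of_mul_eq_mul_right hpos h1
  have h3 : finrank K E * finrank E D = finrank K D := Module.finrank_mul_finrank K E D
  rw [← h3, ← h2]

end dc

section prim

theorem exists_gen (E : Type) [CommRing E] [IsDomain E] [Algebra ℚ E] [FiniteDimensional ℚ E] :
    ∃ α : E, ∀ x : E, ∃ q : ℚ[X], aeval α q = x := by
  let _ : Field E := fieldOfFiniteDimensional ℚ E
  obtain ⟨α, hα⟩ := Field.exists_primitive_element ℚ E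
  refine ⟨α, fun x => ?_⟩
  have h1 : x ∈ IntermediateField.adjoin ℚ {α} := by rw [hα]; trivial
  have h2 := IntermediateField.adjoin_simple_toSubalgebra_of_isAlgebraic
    (Algebra.IsAlgebraic.isAlgebraic (R := ℚ) α)
  have h3 : x ∈ (IntermediateField.adjoin ℚ {α}).toSubalgebra := h1
  rw [h2, Algebra.adjoin_singleton_eq_range_aeval] at h3
  exact h3

variable {D : Type} [DivisionRing D] [StarRing D] [CharZero D] [FiniteDimensional ℚ D]

open scoped IsMulCommutative in
theorem exists_gen_pair {θ y : D} (hθ : star θ = θ) (hy : star y = y) (h : θ * y = y * θ) :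
    ∃ η : D, star η = η ∧ θ ∈ Algebra.adjoin ℚ {η} ∧ y ∈ Algebra.adjoin ℚ {η} := by
  have hcomm : ∀ a ∈ ({θ, y} : Set D), ∀ b ∈ ({θ, y} : Set D), a * b = b * a := by
    intro a ha b hb
    rcases ha with rfl | rfl <;> rcases hb with rfl | rfl
    · rfl
    · exact h
    · exact h.symm
    · rfl
  have _ : IsMulCommutative (Algebra.adjoin ℚ ({θ, y} : Set D)) :=
    Algebra.isMulCommutative_adjoin ℚ hcomm
  have hsym : ∀ x ∈ Algebra.adjoin ℚ ({θ, y} : Set D), star x = x := by
    intro x hx
    induction hx using Algebra.adjoin_induction with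
    | mem x hx => rcases hx with rfl | rfl <;> assumption
    | algebraMap q => simp
    | add a b _ _ ha hb => rw [star_add, ha, hb]
    | mul a b ha' hb' ha hb =>
      rw [star_mul, ha, hb]
      exact congrArg Subtype.val (mul_comm (⟨b, hb'⟩ : Algebra.adjoin ℚ ({θ, y} : Set D)) ⟨a, ha'⟩)
  obtain ⟨α, hα⟩ := exists_gen (Algebra.adjoin ℚ ({θ, y} : Set D))
  have hmem : ∀ x ∈ Algebra.adjoin ℚ ({θ, y} : Set D), x ∈ Algebra.adjoin ℚ {(α : D)} := by
    intro x hx
    obtain ⟨q, hq⟩ := hα ⟨x, hx⟩
    rw [Algebra.adjoin_singleton_eq_range_aeval]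
    refine ⟨q, ?_⟩
    have h1 := congrArg Subtype.val hq
    change ((Algebra.adjoin ℚ ({θ, y} : Set D)).val (aeval α q)) = x at h1
    rw [← aeval_algHom_apply] at h1
    exact h1
  exact ⟨α, hsym _ α.2, hmem θ (Algebra.subset_adjoin (by simp)),
    hmem y (Algebra.subset_adjoin (by simp))⟩

end prim

section max

variable {K D : Type} [Field K] [NumberField K] [StarRing K] [DivisionRing D] [StarRing D]
  [Algebra K D] [StarModule K D] [FiniteDimensional K D] [Algebra.IsCentral K D]

theorem star_map (k : K) : star (algebraMap K D k) = algebraMap K D (star k) :=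
  (algebraMap_star_comm k).symm

theorem exists_max {κ : K} (hκ : star κ = -κ) (hκ0 : κ ≠ 0) :
    ∃ θ : D, star θ = θ ∧ θ ≠ 0 ∧ ∀ x, x * θ = θ * x → x ∈ Algebra.adjoin K {θ} := by
  have hD : CharZero D := charZero_of_injective_algebraMap (algebraMap K D).injective
  have : IsScalarTower ℚ K D := ⟨fun q k x => by
    rw [Algebra.smul_def q k, mul_smul, Algebra.smul_def, Algebra.smul_def, Algebra.smul_def]
    simp⟩
  have hfin : FiniteDimensional ℚ D := Module.Finite.trans K D
  -- maximal element
  let S : Set ℕ := {m | ∃ θ : D, star θ = θ ∧ finrank K (Algebra.adjoin K {θ}) = m}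
  have hne : S.Nonempty := ⟨_, 1, star_one D, rfl⟩
  have hbdd : BddAbove S := by
    refine ⟨finrank K D, ?_⟩
    rintro m ⟨θ, -, rfl⟩
    exact Submodule.finrank_le (Subalgebra.toSubmodule (Algebra.adjoin K {θ}))
  obtain ⟨θ, hθ, hm⟩ := Nat.sSup_mem hne hbdd
  have hmax : ∀ η : D, star η = η →
      finrank K (Algebra.adjoin K {η}) ≤ finrank K (Algebra.adjoin K {θ}) := by
    intro η hη
    rw [hm]
    exact le_csSup hbdd ⟨η, hη, rfl⟩
  have h1 : ∀ y, star y = y → θ * y = y * θ → y ∈ Algebra.adjoin K {θ} := by
    intro y hy hc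
    obtain ⟨η, hη, h2, h3⟩ := exists_gen_pair hθ hy hc
    have h4 : ∀ x ∈ Algebra.adjoin ℚ {η}, x ∈ Algebra.adjoin K {η} := by
      intro x hx
      have : Algebra.adjoin ℚ {η} ≤ (Algebra.adjoin K {η}).restrictScalars ℚ :=
        Algebra.adjoin_le (Algebra.subset_adjoin (R := K))
      exact this hx
    have h5 : Algebra.adjoin K {θ} ≤ Algebra.adjoin K {η} :=
      Algebra.adjoin_le (by simpa using h4 θ h2)
    have h6 : Algebra.adjoin K {θ} = Algebra.adjoin K {η} :=
      Subalgebra.eq_of_le_of_finrank_le h5 (hmax η hη)
    rw [h6]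
    exact h4 y h3
  have h2 : ∀ x, x * θ = θ * x → x ∈ Algebra.adjoin K {θ} := by
    intro x hx
    have hxs : star x * θ = θ * star x := by
      have := congrArg star hx
      rw [star_mul, star_mul, hθ] at this
      exact this.symm
    have ha : x + star x ∈ Algebra.adjoin K {θ} := by
      apply h1
      · rw [star_add, star_star, add_comm]
      · rw [mul_add, add_mul, hx, hxs]
    have hb : algebraMap K D κ * (x - star x) ∈ Algebra.adjoin K {θ} := by
      apply h1
      · rw [star_mul, star_sub, star_star, star_map, hκ, map_neg, mul_neg, ← neg_mul, neg_sub,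
          Algebra.commutes]
      · rw [← mul_assoc, ← Algebra.commutes, mul_assoc, mul_assoc, mul_sub, sub_mul, hx, hxs]
    have hc : x - star x ∈ Algebra.adjoin K {θ} := by
      have h3 : x - star x = κ⁻¹ • (algebraMap K D κ * (x - star x)) := by
        rw [← Algebra.smul_def, smul_smul, inv_mul_cancel₀ hκ0, one_smul]
      rw [h3]
      exact Subalgebra.smul_mem _ hb _
    have h3 : x = (2 : K)⁻¹ • ((x + star x) + (x - star x)) := by
      have : (x + star x) + (x - star x) = (2 : K) • x := by
        rw [two_smul]; abel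
      rw [this, smul_smul, inv_mul_cancel₀ two_ne_zero, one_smul]
    rw [h3]
    exact Subalgebra.smul_mem _ (add_mem ha hc) _
  by_cases h0 : θ = 0
  · subst h0
    refine ⟨1, star_one D, one_ne_zero, fun x _ => ?_⟩
    have h3 := h2 x (by rw [mul_zero, zero_mul])
    have h4 : Algebra.adjoin K {(0 : D)} ≤ Algebra.adjoin K {(1 : D)} :=
      Algebra.adjoin_le (by simp)
    exact h4 h3
  · exact ⟨θ, hθ, h0, h2⟩

end max

section sums

variable {K D : Type} [Field K] [DivisionRing D] [Algebra K D]

theorem coeff_divX_iter (q : K[X]) (i j : ℕ) : (divX^[i] q).coeff j = q.coeff (j + i) := by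
  induction i generalizing j with
  | zero => rfl
  | succ i ih => rw [Function.iterate_succ_apply', coeff_divX, ih]; congr 1; omega

/-- the sum of all `b i * y * θ ^ i` -/
noncomputable def gs (θ : D) (n : ℕ) (q : K[X]) (y : D) : D :=
  ∑ i ∈ Finset.range n, aeval θ (divX^[i + 1] q) * y * θ ^ i

/-- the sum of all `θ ^ i * y * b i` -/
noncomputable def fs (θ : D) (n : ℕ) (q : K[X]) (y : D) : D :=
  ∑ i ∈ Finset.range n, θ ^ i * y * aeval θ (divX^[i + 1] q)

theorem gs_succ (θ : D) (n : ℕ) (q : K[X]) (y : D) :
    gs θ (n + 1) q y = aeval θ (divX q) * y + gs θ n (divX q) y * θ := by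
  rw [gs, Finset.sum_range_succ', add_comm, gs, Finset.sum_mul]
  congr 1
  · rw [pow_zero, mul_one]; rfl
  · refine Finset.sum_congr rfl fun i _ => ?_
    rw [Function.iterate_succ_apply, pow_succ, ← mul_assoc]

theorem fs_succ (θ : D) (n : ℕ) (q : K[X]) (y : D) :
    fs θ (n + 1) q y = y * aeval θ (divX q) + θ * fs θ n (divX q) y := by
  rw [fs, Finset.sum_range_succ', add_comm, fs, Finset.mul_sum]
  congr 1
  · rw [pow_zero, one_mul]; rfl
  · refine Finset.sum_congr rfl fun i _ => ?_
    rw [Function.iterate_succ_apply, pow_succ']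
    simp only [mul_assoc]

theorem aeval_divX (θ : D) (q : K[X]) :
    aeval θ q = θ * aeval θ (divX q) + algebraMap K D (q.coeff 0) := by
  conv_lhs => rw [← X_mul_divX_add q]
  rw [map_add, map_mul, aeval_X, aeval_C]

theorem aeval_comm (θ : D) (q : K[X]) : θ * aeval θ q = aeval θ q * θ := by
  have h : X * q = q * X := mul_comm _ _
  have := congrArg (aeval θ) h
  rwa [map_mul, map_mul, aeval_X] at this

theorem aeval_comm' {θ x : D} (hx : x * θ = θ * x) (q : K[X]) :
    x * aeval θ q = aeval θ q * x := by
  induction q using Polynomial.induction_on' with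
  | add p q hp hq => rw [map_add, mul_add, add_mul, hp, hq]
  | monomial n a =>
    rw [aeval_monomial, ← mul_assoc, ← Algebra.commutes, mul_assoc, mul_assoc]
    congr 1
    exact (show Commute x θ from hx).pow_right n

theorem natDegree_divX_le' {q : K[X]} {n : ℕ} (h : q.natDegree ≤ n + 1) :
    (divX q).natDegree ≤ n := by
  rw [natDegree_divX_eq_natDegree_tsub_one]; omega

theorem eq_C_of_natDegree_le_zero' {q : K[X]} (h : q.natDegree ≤ 0) : q = C (q.coeff 0) :=
  eq_C_of_natDegree_le_zero h

theorem gs_comm (θ : D) (n : ℕ) (q : K[X]) (hq : q.natDegree ≤ n) (y : D) :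
    θ * gs θ n q y - gs θ n q y * θ = aeval θ q * y - y * aeval θ q := by
  induction n generalizing q with
  | zero =>
    rw [eq_C_of_natDegree_le_zero hq, gs, Finset.sum_range_zero, mul_zero, zero_mul, aeval_C,
      Algebra.commutes, sub_self, sub_self]
  | succ n ih =>
    have h1 := ih (divX q) (natDegree_divX_le' hq)
    rw [gs_succ, aeval_divX θ q]
    have h3 : θ * aeval θ (divX q) = aeval θ (divX q) * θ := aeval_comm θ _
    set r := aeval θ (divX q) with hr
    set g := gs θ n (divX q) y with hg
    have h4 : y * r = r * y - (θ * g - g * θ) := by rw [h1]; abel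
    have h5 : y * (θ * r) = (r * y - (θ * g - g * θ)) * θ := by rw [h3, ← mul_assoc, h4]
    rw [add_mul (θ * r), mul_add y, h5, Algebra.commutes]
    simp only [sub_mul, mul_add, add_mul, mul_assoc]
    abel

theorem gs_eq_fs (θ : D) (n : ℕ) (q : K[X]) (hq : q.natDegree ≤ n) (y : D) :
    gs θ n q y = fs θ n q y := by
  induction n generalizing q with
  | zero => rw [gs, fs, Finset.sum_range_zero, Finset.sum_range_zero]
  | succ n ih =>
    rw [gs_succ, fs_succ, ← ih (divX q) (natDegree_divX_le' hq)]
    have h1 := gs_comm θ n (divX q) (natDegree_divX_le' hq) y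
    have h2 : aeval θ (divX q) * y = θ * gs θ n (divX q) y - gs θ n (divX q) y * θ +
      y * aeval θ (divX q) := by rw [h1]; abel
    rw [h2]
    abel

theorem gs_one (θ : D) (n : ℕ) (q : K[X]) (hq : q.natDegree ≤ n) :
    gs θ n q 1 = aeval θ (derivative q) := by
  induction n generalizing q with
  | zero =>
    rw [eq_C_of_natDegree_le_zero hq, gs, Finset.sum_range_zero, derivative_C, map_zero]
  | succ n ih =>
    rw [gs_succ, ih (divX q) (natDegree_divX_le' hq), mul_one]
    conv_rhs => rw [← divX_mul_X_add q]
    rw [derivative_add, derivative_C, add_zero, derivative_mul, derivative_X, mul_one, map_add,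
      map_mul, aeval_X, add_comm]

end sums

section td

variable {K D : Type} [Field K] [StarRing K] [DivisionRing D] [StarRing D]
  [Algebra K D] [StarModule K D]

theorem star_aeval {θ : D} (hθ : star θ = θ) (q : K[X]) :
    star (aeval θ q) = aeval θ (q.map (starRingEnd K)) := by
  induction q using Polynomial.induction_on' with
  | add p q hp hq => rw [map_add, star_add, hp, hq, Polynomial.map_add, map_add]
  | monomial n a =>
    rw [aeval_monomial, star_mul, star_pow, hθ, ← algebraMap_star_comm, Polynomial.map_monomial,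
      aeval_monomial, ← Algebra.commutes]
    rfl

variable [FiniteDimensional K D]

theorem map_minpoly {θ : D} (hθ : star θ = θ) :
    (minpoly K θ).map (starRingEnd K) = minpoly K θ := by
  apply minpoly.unique_of_degree_le_degree_minpoly
  · exact (minpoly.monic (Algebra.IsIntegral.isIntegral θ)).map _
  · rw [← star_aeval hθ, minpoly.aeval, star_zero]
  · rw [Polynomial.degree_map]

theorem map_divX_iter {θ : D} (hθ : star θ = θ) (i : ℕ) :
    (divX^[i] (minpoly K θ)).map (starRingEnd K) = divX^[i] (minpoly K θ) := by
  ext j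
  rw [coeff_map, coeff_divX_iter]
  conv_rhs => rw [← map_minpoly hθ]
  rw [coeff_map]

/-- The transfer data attached to a symmetric element of degree `n`. -/
noncomputable def mkTD {θ : D} (hθ : star θ = θ) (hθ0 : θ ≠ 0) {n : ℕ} (hn : 0 < n)
    (hdeg : (minpoly K θ).natDegree = n) : TD D n where
  θ := θ
  c i := algebraMap K D ((minpoly K θ).coeff i)
  b i := aeval θ (divX^[i + 1] (minpoly K θ))
  star_θ := hθ
  c_comm i x := Algebra.commutes _ _
  star_c i := by
    rw [← algebraMap_star_comm]
    congr 1
    conv_rhs => rw [← map_minpoly hθ]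
    rw [coeff_map]
    rfl
  c_zero := (_root_.map_ne_zero _).mpr
    (minpoly.coeff_zero_ne_zero (Algebra.IsIntegral.isIntegral θ) hθ0)
  b_comm i x hx := aeval_comm' hx _
  star_b i := by rw [star_aeval hθ, map_divX_iter hθ]
  b_last := by
    have h1 : divX^[n - 1 + 1] (minpoly K θ) = 1 := by
      ext j
      rw [coeff_divX_iter, coeff_one]
      have hmon := minpoly.monic (Algebra.IsIntegral.isIntegral (R := K) θ)
      split_ifs with hj
      · subst hj
        rw [show 0 + (n - 1 + 1) = (minpoly K θ).natDegree by omega]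
        exact hmon
      · exact coeff_eq_zero_of_natDegree_lt (by omega)
    rw [h1, map_one]
  b_succ i _ := by
    rw [aeval_divX θ (divX^[i + 1] (minpoly K θ)), coeff_divX_iter, zero_add, add_comm,
      ← Function.iterate_succ_apply' divX (i + 1)]
  b_zero := by
    have h1 := aeval_divX θ (minpoly K θ)
    rw [minpoly.aeval] at h1
    exact eq_neg_of_add_eq_zero_left h1.symm

variable {θ : D} (hθ : star θ = θ) (hθ0 : θ ≠ 0) {n : ℕ} (hn : 0 < n)
    (hdeg : (minpoly K θ).natDegree = n)

theorem mkTD_θ : (mkTD hθ hθ0 hn hdeg).θ = θ := rfl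

theorem mkTD_Pi' (x : D) : (mkTD hθ hθ0 hn hdeg).Pi' x = gs θ n (minpoly K θ) x := by
  rw [TD.Pi', gs, Finset.sum_range]
  rfl

theorem mkTD_Pi'_comm (x : D) :
    (mkTD hθ hθ0 hn hdeg).Pi' x * θ = θ * (mkTD hθ hθ0 hn hdeg).Pi' x := by
  rw [mkTD_Pi']
  have := gs_comm θ n (minpoly K θ) hdeg.le x
  rw [minpoly.aeval, zero_mul, mul_zero, sub_zero] at this
  exact (sub_eq_zero.mp this).symm

theorem mkTD_Pi'_star (x : D) :
    (mkTD hθ hθ0 hn hdeg).Pi' (star x) = star ((mkTD hθ hθ0 hn hdeg).Pi' x) := by
  rw [mkTD_Pi', mkTD_Pi', gs_eq_fs θ n _ hdeg.le, fs, gs, star_sum]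
  refine Finset.sum_congr rfl fun i _ => ?_
  rw [star_mul, star_mul, star_pow, hθ, star_aeval hθ, map_divX_iter hθ, mul_assoc]

theorem mkTD_Pi'_one [CharZero K] : (mkTD hθ hθ0 hn hdeg).Pi' 1 ≠ 0 := by
  rw [mkTD_Pi', gs_one θ n _ hdeg.le]
  intro h
  have hint : IsIntegral K θ := Algebra.IsIntegral.isIntegral θ
  have h1 : minpoly K θ ∣ derivative (minpoly K θ) := minpoly.dvd K θ h
  have h2 : derivative (minpoly K θ) ≠ 0 := by
    intro h0
    have := derivative_eq_zero.mp h0
    omega
  have h3 := natDegree_le_of_dvd h1 h2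
  have h4 := natDegree_derivative_lt (p := minpoly K θ) (by omega)
  omega

theorem Pi'_add (T : TD D n) (x y : D) : T.Pi' (x + y) = T.Pi' x + T.Pi' y := by
  rw [TD.Pi', TD.Pi', TD.Pi', ← Finset.sum_add_distrib]
  exact Finset.sum_congr rfl fun i _ => by rw [mul_add, add_mul]

theorem Pi'_left (T : TD D n) {l : D} (hl : l * T.θ = T.θ * l) (x : D) :
    T.Pi' (l * x) = l * T.Pi' x := by
  rw [TD.Pi', TD.Pi', Finset.mul_sum]
  refine Finset.sum_congr rfl fun i _ => ?_
  rw [← mul_assoc, ← T.b_comm i l hl]
  simp only [mul_assoc]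

theorem Pi'_right (T : TD D n) {l : D} (hl : l * T.θ = T.θ * l) (x : D) :
    T.Pi' (x * l) = T.Pi' x * l := by
  rw [TD.Pi', TD.Pi', Finset.sum_mul]
  refine Finset.sum_congr rfl fun i _ => ?_
  have : l * T.θ ^ (i : ℕ) = T.θ ^ (i : ℕ) * l := (show Commute l T.θ from hl).pow_right i
  simp only [mul_assoc, this]

end td

section main

variable {K D : Type} [Field K] [DivisionRing D] [Algebra K D] [FiniteDimensional K D]

open scoped IsMulCommutative in
theorem exists_field {θ : D} (h : ∀ x, x * θ = θ * x → x ∈ Algebra.adjoin K {θ}) :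
    ∃ (L : Type) (_ : Field L) (_ : Algebra K L) (j : L →ₐ[K] D),
      ∀ x : D, x * θ = θ * x ↔ ∃ l, j l = x := by
  have hc : ∀ x, x ∈ Subalgebra.centralizer K {θ} ↔ x * θ = θ * x := by
    intro x
    rw [Subalgebra.mem_centralizer_iff]
    constructor
    · intro h1
      exact (h1 θ rfl).symm
    · rintro h1 _ rfl
      exact h1.symm
  have _ : IsMulCommutative (Subalgebra.centralizer K {θ}) := by
    apply IsMulCommutative.of_setLike_mul_comm
    intro a ha b hb
    have h1 := h b ((hc b).mp hb)
    rw [Algebra.adjoin_singleton_eq_range_aeval] at h1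
    obtain ⟨q, rfl⟩ := h1
    exact aeval_comm' ((hc a).mp ha) q
  refine ⟨Subalgebra.centralizer K {θ}, fieldOfFiniteDimensional K _, inferInstance,
    (Subalgebra.centralizer K {θ}).val, fun x => ?_⟩
  rw [← hc]
  exact ⟨fun hx => ⟨⟨x, hx⟩, rfl⟩, fun ⟨l, hl⟩ => hl ▸ l.2⟩

theorem exists_starRing [StarRing D] {L : Type} [Field L] (j : L →+* D)
    (hj : ∀ l, ∃ l', j l' = star (j l)) : ∃ _ : StarRing L, ∀ l, j (star l) = star (j l) := by
  choose st hst using hj
  exact ⟨
    { star := st
      star_involutive := fun l => j.injective (by rw [hst, hst, star_star])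
      star_mul := fun a b => j.injective (by rw [hst, map_mul, star_mul, map_mul, hst, hst])
      star_add := fun a b => j.injective (by rw [hst, map_add, star_add, map_add, hst, hst]) },
    hst⟩

/-- the fixed field of an involution -/
def fixF (L : Type) [Field L] [StarRing L] : Subfield L where
  carrier := {l | star l = l}
  mul_mem' {a b} ha hb := by
    change star (a * b) = a * b
    rw [star_mul', show star a = a from ha, show star b = b from hb]
  one_mem' := star_one L
  add_mem' {a b} ha hb := by
    change star (a + b) = a + b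
    rw [star_add, show star a = a from ha, show star b = b from hb]
  zero_mem' := star_zero L
  neg_mem' {a} ha := by
    change star (-a) = -a
    rw [star_neg, show star a = a from ha]
  inv_mem' a ha := by
    change star (a⁻¹) = a⁻¹
    rw [star_inv₀, show star a = a from ha]

theorem numberField_fixF {L : Type} [Field L] [NumberField L] [StarRing L] :
    NumberField (fixF L) where
  to_finiteDimensional :=
    Module.Finite.of_injective ((fixF L).subtype.toRatAlgHom).toLinearMap
      (fixF L).subtype.injective

theorem numberField_of_finite {L : Type} [Field L] [NumberField K] [Algebra K L]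
    [FiniteDimensional K L] : NumberField L := by
  have : CharZero L := charZero_of_injective_algebraMap (algebraMap K L).injective
  have : IsScalarTower ℚ K L := IsScalarTower.of_algebraMap_eq fun q => by simp
  exact { to_finiteDimensional := Module.Finite.trans K L }

variable [NumberField K] [StarRing K] [StarRing D] [StarModule K D] [Algebra.IsCentral K D]

/-- A division algebra of degree `n` over a number field with an involution nontrivial on the
centre contains a self-adjoint maximal subfield. -/
theorem exists_MS {κ : K} (hκ : star κ = -κ) (hκ0 : κ ≠ 0) {n : ℕ} (hn : 0 < n)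
    (hdeg : finrank K D = n ^ 2) :
    ∃ (E L : Type) (_ : Field E) (_ : NumberField E) (_ : Field L) (_ : NumberField L)
      (_ : StarRing L) (_ : Algebra E L) (_ : Algebra K L) (_ : Module L D) (M : MS K D E L n)
      (_ : ∀ (l : L) (x : D), l • x = M.j l * x) (_ : Basis (Fin n) L D) (d : E),
      QuadL E L d ∧ algebraMap E L d = algebraMap K L (κ ^ 2) ∧ finrank K L = n := by
  obtain ⟨θ, hθ, hθ0, hmax⟩ := exists_max (D := D) hκ hκ0
  obtain ⟨L, _, _, j, hj⟩ := exists_field hmax
  have hjinj : Function.Injective j := j.toRingHom.injective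
  obtain ⟨_, hjs⟩ := exists_starRing j.toRingHom (by
    intro l
    apply (hj _).mp
    have h1 := (hj (j l)).mpr ⟨l, rfl⟩
    have := congrArg star h1
    rw [star_mul, star_mul, hθ] at this
    exact this.symm)
  have hjs' : ∀ l, j (star l) = star (j l) := hjs
  have hfinL : FiniteDimensional K L := Module.Finite.of_injective j.toLinearMap hjinj
  have _ : NumberField L := numberField_of_finite (K := K)
  have hcommL : ∀ l, j l * θ = θ * j l := fun l => (hj _).mpr ⟨l, rfl⟩
  -- the degree of `L`
  have hdegL : finrank K L = n := by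
    have h1 := finrank_centralizer (K := K) j.range
    have h2 : Subalgebra.centralizer K (j.range : Set D) = j.range := by
      apply le_antisymm
      · intro x hx
        rw [Subalgebra.mem_centralizer_iff] at hx
        obtain ⟨l0, hl0⟩ := (hj θ).mp rfl
        have := hx θ ⟨l0, hl0⟩
        exact (hj x).mp this.symm
      · rintro _ ⟨l, rfl⟩
        rw [Subalgebra.mem_centralizer_iff]
        rintro _ ⟨m, rfl⟩
        change j m * j l = j l * j m
        rw [← map_mul, ← map_mul, mul_comm]
    have h3 : finrank K j.range = finrank K L :=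
      (AlgEquiv.ofInjective j hjinj).toLinearEquiv.finrank_eq.symm
    rw [h2, h3, hdeg, ← sq] at h1
    exact Nat.pow_left_injective two_ne_zero h1
  -- the minimal polynomial of `θ`
  have hmin : (minpoly K θ).natDegree = n := by
    obtain ⟨t, ht⟩ := (hj θ).mp rfl
    have h1 : IntermediateField.adjoin K {t} = ⊤ := by
      rw [eq_top_iff]
      intro l _
      have h2 := hmax (j l) (hcommL l)
      rw [Algebra.adjoin_singleton_eq_range_aeval] at h2
      obtain ⟨q, hq⟩ := h2
      have h3 : l = aeval t q := by
        apply hjinj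
        rw [← aeval_algHom_apply, ht]
        exact hq.symm
      rw [h3]
      exact IntermediateField.algebra_adjoin_le_adjoin K {t} (by
        rw [Algebra.adjoin_singleton_eq_range_aeval]
        exact ⟨q, rfl⟩)
    have h2 : finrank K (IntermediateField.adjoin K {t}) = (minpoly K t).natDegree :=
      IntermediateField.adjoin.finrank (Algebra.IsIntegral.isIntegral t)
    rw [h1, IntermediateField.finrank_top', hdegL] at h2
    rw [← ht, minpoly.algHom_eq j hjinj t, ← h2]
  let T : TD D n := mkTD hθ hθ0 hn hmin
  have hTθ : T.θ = θ := rfl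
  have hT1 : ∀ x, ∃ l, j l = T.Pi' x := fun x => (hj _).mp (mkTD_Pi'_comm hθ hθ0 hn hmin x)
  choose pc hpc using hT1
  have hpc1 : pc 1 ≠ 0 := by
    intro h
    have h1 := hpc 1
    rw [h, map_zero] at h1
    exact mkTD_Pi'_one hθ hθ0 hn hmin h1.symm
  have hpcs : ∀ x, pc (star x) = star (pc x) := by
    intro x
    apply hjinj
    rw [hpc, hjs', hpc]
    exact mkTD_Pi'_star hθ hθ0 hn hmin x
  let _ : Module L D := Module.compHom D j.toRingHom
  have hsmul : ∀ (l : L) (x : D), l • x = j l * x := fun _ _ => rfl
  let M : MS K D (fixF L) L n :=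
    { T := T
      j := j
      j_star := hjs
      comm := fun x hx => (hj x).mp hx
      p := fun x => pc x / pc 1
      p_add := fun x y => by
        rw [← add_div]
        congr 1
        apply hjinj
        rw [map_add, hpc, hpc, hpc, Pi'_add]
      p_left := fun l x => by
        rw [← mul_div_assoc]
        congr 1
        apply hjinj
        rw [map_mul, hpc, hpc, Pi'_left T (by rw [hTθ]; exact hcommL l)]
      p_star := fun x => by
        rw [star_div₀, ← hpcs, ← hpcs, star_one]
      p_one := div_self hpc1
      p_zero := fun x hx => by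
        rw [div_eq_zero_iff] at hx
        rw [← hpc, hx.resolve_right hpc1, map_zero]
      fix := fun x hx => ⟨⟨x, hx⟩, rfl⟩
      fix' := fun e => e.2 }
  have hstarK : ∀ k : K, star (algebraMap K L k) = algebraMap K L (star k) := by
    intro k
    apply hjinj
    rw [hjs', AlgHom.commutes, AlgHom.commutes, algebraMap_star_comm]
  have htower : IsScalarTower K L D := ⟨fun k l x => by
    rw [hsmul, hsmul, map_smul, smul_mul_assoc]⟩
  have hLD : finrank L D = n := by
    have h1 : finrank K L * finrank L D = finrank K D := Module.finrank_mul_finrank K L D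
    rw [hdegL, hdeg, sq] at h1
    exact Nat.eq_of_mul_eq_mul_left hn h1
  have : Module.Finite L D := Module.Finite.of_restrictScalars_finite K L D
  have hd : star (algebraMap K L (κ ^ 2)) = algebraMap K L (κ ^ 2) := by
    rw [hstarK, star_pow, hκ, neg_sq]
  refine ⟨fixF L, L, inferInstance, numberField_fixF, inferInstance, inferInstance, inferInstance,
    inferInstance, inferInstance, inferInstance, M, hsmul, Module.finBasisOfFinrankEq L D hLD,
    ⟨algebraMap K L (κ ^ 2), hd⟩, ⟨fun x hx => ⟨⟨x, hx⟩, rfl⟩, fun e => e.2,
      algebraMap K L κ, (_root_.map_ne_zero _).mpr hκ0, ?_, ?_⟩, rfl, hdegL⟩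
  · rw [hstarK, hκ, map_neg]
  · rw [← map_pow]
    rfl

end main

end Vale.Agent.P011.T2
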