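import Vale.Agent.P011.T2.Rep2
import Vale.Agent.P011.Arith.Landherr

open Module

namespace Vale.Agent.P011.T2

/-- The existence of lagrangians over number fields. -/
theorem lagrProp {E L : Type} [Field E] [NumberField E] [Field L] [StarRing L] [Algebra E L]
    {d : E} (hQ : QuadL E L d) : LagrProp E L d := by
  classical
  intro V _ _ b m v hdisc hsig
  obtain ⟨θ, hθ0, hθ, hθd⟩ := hQ.gen
  have hd0 : d ≠ 0 := by
    rintro rfl
    rw [map_zero] at hθd
    exact hθ0 (pow_eq_zero_iff two_ne_zero |>.mp hθd)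
  have hq : Arith.Lan.Quad (Units.mk0 d hd0) θ :=
    ⟨hθ, hθd, hQ.fix, hQ.fix'⟩
  have hb : Arith.Lan.Herm b.h := ⟨b.add_left, b.smul_left, b.star_h⟩
  obtain ⟨q, hqq⟩ := Arith.Lan.q_of hq hb
  refine Arith.Lan.exists_lagrangian hq m V b.h q hb hqq v hdisc ?_
  intro φ hφ
  obtain ⟨P, N, h1, h2, h3, h4⟩ := hsig φ hφ
  refine ⟨P, N, h1, h2, fun x hx hx0 => ?_, fun x hx hx0 => ?_⟩
  · obtain ⟨e, he, he'⟩ := h3 x hx hx0
    rw [← hqq] at he
    rwa [← (algebraMap E L).injective he]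
  · obtain ⟨e, he, he'⟩ := h4 x hx hx0
    rw [← hqq, ← map_neg] at he
    rw [(algebraMap E L).injective he, map_neg] at he'
    linarith

end Vale.Agent.P011.T2
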