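import Vale.Agent.P011.T2.Descent

/-!
Diagonal forms over a division ring of odd degree: lagrangians over a maximal subfield give
lagrangians over the division ring.
-/

open Module Matrix

namespace Vale.Agent.P011.T2

/-- Self-adjoint maximal subfield `L` of `D`, with fixed field `E`. -/
structure MS (K D E L : Type) [Field K] [DivisionRing D] [StarRing D] [Algebra K D] [Field E]
    [Field L] [StarRing L] [Algebra E L] [Algebra K L] (n : ℕ) where
  T : TD D n
  j : L →ₐ[K] D
  j_star : ∀ l, j (star l) = star (j l)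
  comm : ∀ x : D, x * T.θ = T.θ * x → ∃ l, j l = x
  p : D → L
  p_add : ∀ x y, p (x + y) = p x + p y
  p_left : ∀ l x, p (j l * x) = l * p x
  p_star : ∀ x, p (star x) = star (p x)
  p_one : p 1 = 1
  p_zero : ∀ x, p x = 0 → T.Pi' x = 0
  fix : ∀ x : L, star x = x → ∃ e : E, algebraMap E L e = x
  fix' : ∀ e : E, star (algebraMap E L e) = algebraMap E L e

/-- `l` is a symmetric element, positive at `φ`. -/
def PosE {E L : Type} [Field E] [Field L] [Algebra E L] (φ : E →+* ℝ) (l : L) : Prop :=
  ∃ e : E, algebraMap E L e = l ∧ 0 < φ e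

/-- The existence of lagrangians for hermitian forms over the quadratic extension `L` of `E`
with trivial discriminant and trivial signatures. -/
def LagrProp (E L : Type) [Field E] [Field L] [StarRing L] [Algebra E L] (d : E) : Prop :=
  ∀ (V : Type) [AddCommGroup V] [Module L V] (b : HF L V) (m : ℕ) (v : Basis (Fin (2 * m)) L V),
    (∃ z : L, z ≠ 0 ∧ (-1) ^ m * (Matrix.of fun i j => b.h (v i) (v j)).det = z * star z) →
    (∀ φ : E →+* ℝ, φ d < 0 → ∃ P N : Submodule L V, m ≤ finrank L P ∧ m ≤ finrank L N ∧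
      (∀ x ∈ P, x ≠ 0 → PosE φ (b.h x x)) ∧ (∀ x ∈ N, x ≠ 0 → PosE φ (-b.h x x))) →
    ∃ W : Submodule L V, finrank L W = m ∧ ∀ x ∈ W, ∀ y ∈ W, b.h x y = 0

section PosE

variable {E L : Type} [Field E] [Field L] [Algebra E L] {φ : E →+* ℝ}

theorem PosE.add {a b : L} (ha : PosE φ a) (hb : PosE φ b) : PosE φ (a + b) := by
  obtain ⟨e, he, he'⟩ := ha
  obtain ⟨f, hf, hf'⟩ := hb
  exact ⟨e + f, by rw [map_add, he, hf], by rw [map_add]; exact add_pos he' hf'⟩

theorem PosE.mul {a b : L} (ha : PosE φ a) (hb : PosE φ b) : PosE φ (a * b) := by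
  obtain ⟨e, he, he'⟩ := ha
  obtain ⟨f, hf, hf'⟩ := hb
  exact ⟨e * f, by rw [map_mul, he, hf], by rw [map_mul]; exact mul_pos he' hf'⟩

theorem PosE.ne_zero {a : L} (ha : PosE φ a) : a ≠ 0 := by
  obtain ⟨e, he, he'⟩ := ha
  rintro rfl
  rw [map_eq_zero] at he
  rw [he, map_zero] at he'
  exact lt_irrefl _ he'

theorem PosE.not_neg {a : L} (ha : PosE φ a) : ¬ PosE φ (-a) := by
  intro h
  have := ha.add h
  rw [add_neg_cancel] at this
  exact this.ne_zero rfl

end PosE

namespace MS

variable {K D E L : Type} [Field K] [DivisionRing D] [StarRing D] [Algebra K D] [Field E]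
    [Field L] [StarRing L] [Algebra E L] [Algebra K L] {n : ℕ} (M : MS K D E L n)

theorem p_right (l : L) (x : D) : M.p (x * M.j l) = M.p x * l := by
  have h := M.p_left (star l) (star x)
  rw [M.j_star, ← star_mul, M.p_star, M.p_star, ← star_mul] at h
  exact star_injective h

theorem p_zero' : M.p 0 = 0 := by
  have := M.p_add 0 0
  rw [add_zero] at this
  simpa using this

theorem p_sum {ι : Type} (s : Finset ι) (f : ι → D) : M.p (∑ i ∈ s, f i) = ∑ i ∈ s, M.p (f i) :=
  map_sum (AddMonoidHom.mk ⟨M.p, M.p_zero'⟩ M.p_add) f s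

theorem p_neg (x : D) : M.p (-x) = - M.p x :=
  map_neg (AddMonoidHom.mk ⟨M.p, M.p_zero'⟩ M.p_add) x

theorem p_nondeg {x : D} (h : ∀ y, M.p (x * star y) = 0) : x = 0 := by
  by_contra hx
  have h1 := h (star x⁻¹)
  rw [star_star, mul_inv_cancel₀ hx, M.p_one] at h1
  exact one_ne_zero h1

/-- the restriction of a hermitian form -/
def res {V : Type} [AddCommGroup V] [Module D V] [Module L V]
    (hV : ∀ (l : L) (v : V), l • v = M.j l • v) (B : HF D V) : HF L V where
  h x y := M.p (B.h x y)
  add_left x y z := by rw [B.add_left, M.p_add]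
  smul_left a x y := by rw [hV, B.smul_left, M.p_left]
  star_h x y := by rw [← M.p_star, B.star_h]

variable [Module L D] (hD : ∀ (l : L) (x : D), l • x = M.j l * x) (u : Basis (Fin n) L D)

include hD

/-- right multiplications are `L`-linear -/
def rmul (x : D) : D →ₗ[L] D where
  toFun y := y * x
  map_add' y z := add_mul y z x
  map_smul' l y := by rw [hD, hD, mul_assoc]; rfl

theorem rmul_apply (x y : D) : M.rmul hD x y = y * x := rfl

theorem algebraMap_smul' (k : K) (x : D) : algebraMap K L k • x = k • x := by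
  rw [hD, AlgHom.commutes, Algebra.smul_def]

/-- the splitting of `D` over `L` by right multiplication -/
noncomputable def rho : D →ₐ[K] Matrix (Fin n) (Fin n) L where
  toFun x := Matrix.of fun a b => u.repr (u a * x) b
  map_one' := by
    ext a b
    rw [Matrix.of_apply, mul_one, Basis.repr_self, Finsupp.single_apply, Matrix.one_apply]
  map_zero' := by
    ext a b
    rw [Matrix.of_apply, mul_zero, map_zero]
    rfl
  map_add' x y := by
    ext a b
    rw [Matrix.of_apply, mul_add, map_add]
    rfl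
  map_mul' x y := by
    ext a b
    rw [Matrix.of_apply, Matrix.mul_apply, ← mul_assoc]
    have h1 : u a * x * y = ∑ c, u.repr (u a * x) c • (u c * y) := by
      conv_lhs => rw [← u.sum_repr (u a * x)]
      change M.rmul hD y _ = _
      rw [map_sum]
      refine Finset.sum_congr rfl fun c _ => ?_
      rw [map_smul]
      rfl
    rw [h1, map_sum, Finsupp.finsetSum_apply]
    refine Finset.sum_congr rfl fun c _ => ?_
    rw [map_smul]
    rfl
  commutes' k := by
    ext a b
    have h1 : u a * algebraMap K D k = algebraMap K L k • u a := by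
      rw [M.algebraMap_smul' hD, Algebra.smul_def, Algebra.commutes]
    simp only [Matrix.of_apply, h1, map_smul, Basis.repr_self, Finsupp.smul_apply,
      Finsupp.single_apply, Matrix.algebraMap_matrix_apply, smul_eq_mul]
    split_ifs <;> simp

theorem rho_apply (x : D) (a b : Fin n) : M.rho hD u x a b = u.repr (u a * x) b := rfl

omit [Module L D] hD in
/-- the Gram matrix of the hermitian form attached to `e` -/
def gr (w : Fin n → D) (e : D) : Matrix (Fin n) (Fin n) L :=
  Matrix.of fun a b => M.p (w a * e * star (w b))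

theorem gr_eq (e : D) : M.gr u e = M.rho hD u e * M.gr u 1 := by
  ext a b
  rw [Matrix.mul_apply, gr, Matrix.of_apply]
  have h1 : u a * e = ∑ c, M.j (u.repr (u a * e) c) * u c := by
    conv_lhs => rw [← u.sum_repr (u a * e)]
    exact Finset.sum_congr rfl fun c _ => hD _ _
  rw [h1, Finset.sum_mul, M.p_sum]
  refine Finset.sum_congr rfl fun c _ => ?_
  rw [gr, Matrix.of_apply, mul_one, mul_assoc, M.p_left]
  rfl

omit [Module L D] hD in
theorem gr_star (w : Fin n → D) {e : D} (he : star e = e) : (M.gr w e)ᴴ = M.gr w e := by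
  ext a b
  rw [Matrix.conjTranspose_apply, gr, Matrix.of_apply, Matrix.of_apply, ← M.p_star, star_mul,
    star_mul, he, star_star, mul_assoc]

theorem det_gr_one_ne : (M.gr u 1).det ≠ 0 := by
  intro h0
  obtain ⟨v, hv0, hv⟩ := Matrix.exists_vecMul_eq_zero_iff.mpr h0
  have h1 : ∑ a, v a • u a = 0 := by
    apply M.p_nondeg
    intro y
    have h2 : ∀ b, M.p ((∑ a, v a • u a) * star (u b)) = 0 := by
      intro b
      rw [Finset.sum_mul, M.p_sum]
      have h3 := congrFun hv b
      rw [Matrix.vecMul, dotProduct, Pi.zero_apply] at h3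
      rw [← h3]
      refine Finset.sum_congr rfl fun a _ => ?_
      rw [hD, mul_assoc, M.p_left, gr, Matrix.of_apply, mul_one]
    have h3 : star y = ∑ b, star (u b) * M.j (star (u.repr y b)) := by
      conv_lhs => rw [← u.sum_repr y]
      rw [star_sum]
      refine Finset.sum_congr rfl fun b _ => ?_
      rw [hD, star_mul, M.j_star]
    rw [h3, Finset.mul_sum, M.p_sum]
    apply Finset.sum_eq_zero
    intro b _
    rw [← mul_assoc, M.p_right, h2, zero_mul]
  apply hv0
  have h2 := Fintype.linearIndependent_iff.mp u.linearIndependent v h1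
  exact funext h2

/-- the diagonal form -/
def dgF {t : ℕ} (c : Fin t → D) (hc : ∀ i, star (c i) = c i) : HF D (Fin t → D) where
  h x y := ∑ i, x i * c i * star (y i)
  add_left x y z := by
    rw [← Finset.sum_add_distrib]
    exact Finset.sum_congr rfl fun i _ => by rw [Pi.add_apply, add_mul, add_mul]
  smul_left a x y := by
    rw [Finset.mul_sum]
    exact Finset.sum_congr rfl fun i _ => by rw [Pi.smul_apply, smul_eq_mul]; simp only [mul_assoc]
  star_h x y := by
    rw [star_sum]
    exact Finset.sum_congr rfl fun i _ => by rw [star_mul, star_mul, hc, star_star, mul_assoc]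

omit [Module L D] hD in
theorem dgF_h {t : ℕ} (c : Fin t → D) (hc : ∀ i, star (c i) = c i) (x y : Fin t → D) :
    (dgF c hc).h x y = ∑ i, x i * c i * star (y i) := rfl

omit [Module L D] hD in
theorem dgF_nondeg {t : ℕ} (c : Fin t → D) (hc : ∀ i, star (c i) = c i) (h0 : ∀ i, c i ≠ 0) :
    (dgF c hc).Nondeg := by
  intro x hx
  funext i
  have h1 := hx (Pi.single i 1)
  rw [dgF_h, Finset.sum_eq_single i] at h1
  · rw [Pi.single_eq_same, star_one, mul_one] at h1
    exact (mul_eq_zero.mp h1).resolve_right (h0 i)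
  · intro k _ hk
    rw [Pi.single_eq_of_ne hk, star_zero, mul_zero]
  · intro h; exact absurd (Finset.mem_univ _) h

/-- the basis of `D ^ t` over `L` -/
noncomputable def pib (t : ℕ) : Basis (Fin n × Fin t) L (Fin t → D) :=
  (Pi.basis fun _ : Fin t => u).reindex
    ((Equiv.sigmaEquivProd (Fin t) (Fin n)).trans (Equiv.prodComm _ _))

omit hD in
theorem pib_apply (t : ℕ) (a : Fin n) (i : Fin t) : pib u t (a, i) = Pi.single i (u a) := by
  rw [pib, Basis.reindex_apply]
  change (Pi.basis fun _ : Fin t => u) ⟨i, a⟩ = _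
  rw [Pi.basis_apply]

theorem smul_pi {t : ℕ} (l : L) (v : Fin t → D) : l • v = M.j l • v := by
  funext i
  rw [Pi.smul_apply, Pi.smul_apply, hD, smul_eq_mul]

theorem res_dgF_gram {t : ℕ} (c : Fin t → D) (hc : ∀ i, star (c i) = c i) :
    (Matrix.of fun i j => (M.res (M.smul_pi hD) (dgF c hc)).h (pib u t i) (pib u t j)) =
      Matrix.blockDiagonal fun i => M.gr u (c i) := by
  ext ⟨a, i⟩ ⟨b, k⟩
  rw [Matrix.of_apply, pib_apply, pib_apply, Matrix.blockDiagonal_apply]
  change M.p ((dgF c hc).h _ _) = _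
  rw [dgF_h, Finset.sum_eq_single i]
  · rw [Pi.single_eq_same]
    split_ifs with h
    · simp only at h
      subst h
      rw [Pi.single_eq_same]
      rfl
    · rw [Pi.single_eq_of_ne h, star_zero, mul_zero, M.p_zero']
  · intro l _ hl
    rw [Pi.single_eq_of_ne hl, zero_mul, zero_mul]
  · intro h; exact absurd (Finset.mem_univ _) h

end MS

namespace MS

variable {K D E L : Type} [Field K] [DivisionRing D] [StarRing D] [Algebra K D] [Field E]
    [Field L] [StarRing L] [Algebra E L] [Algebra K L] {r : ℕ} (M : MS K D E L (2 * r + 1))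
    [Module L D] (hD : ∀ (l : L) (x : D), l • x = M.j l * x) (u : Basis (Fin (2 * r + 1)) L D)

/-- Lagrangians for diagonal forms. -/
theorem lagr_diag {d : E} (hL : LagrProp E L d) {s : ℕ} (c : Fin (2 * s) → D)
    (hc : ∀ i, star (c i) = c i) (h0 : ∀ i, c i ≠ 0)
    (hdisc : ∃ z : L, z ≠ 0 ∧ (-1) ^ ((2 * r + 1) * s) *
      ((∏ i, (M.rho hD u (c i)).det) * (M.gr u 1).det ^ (2 * s)) = z * star z)
    (hsig : ∀ φ : E →+* ℝ, φ d < 0 → ∃ P N : Submodule L (Fin (2 * s) → D),
      (2 * r + 1) * s ≤ finrank L P ∧ (2 * r + 1) * s ≤ finrank L N ∧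
      (∀ x ∈ P, x ≠ 0 → PosE φ (M.p ((dgF c hc).h x x))) ∧
      (∀ x ∈ N, x ≠ 0 → PosE φ (-M.p ((dgF c hc).h x x)))) :
    ∃ Λ : Submodule D (Fin (2 * s) → D), s ≤ finrank D Λ ∧
      ∀ x ∈ Λ, ∀ y ∈ Λ, (dgF c hc).h x y = 0 := by
  have e0 : Fin (2 * r + 1) × Fin (2 * s) ≃ Fin (2 * ((2 * r + 1) * s)) :=
    finProdFinEquiv.trans (finCongr (by ring))
  obtain ⟨W, hW1, hW2⟩ := hL (Fin (2 * s) → D) (M.res (M.smul_pi hD) (dgF c hc))
    ((2 * r + 1) * s) ((pib u (2 * s)).reindex e0) (by
      obtain ⟨z, hz, hz'⟩ := hdisc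
      refine ⟨z, hz, ?_⟩
      rw [← hz']
      congr 1
      have e1 : (Matrix.of fun i j => (M.res (M.smul_pi hD) (dgF c hc)).h
          (((pib u (2 * s)).reindex e0) i) (((pib u (2 * s)).reindex e0) j)) =
          (Matrix.of fun i j => (M.res (M.smul_pi hD) (dgF c hc)).h
            (pib u (2 * s) i) (pib u (2 * s) j)).submatrix e0.symm e0.symm := by
        ext i k
        simp [Matrix.submatrix_apply]
      rw [e1, Matrix.det_submatrix_equiv_self, M.res_dgF_gram hD u, Matrix.det_blockDiagonal]
      have e2 : ∀ i, (M.gr u (c i)).det = (M.rho hD u (c i)).det * (M.gr u 1).det := by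
        intro i
        rw [M.gr_eq hD u, Matrix.det_mul]
      rw [Finset.prod_congr rfl fun i _ => e2 i, Finset.prod_mul_distrib, Finset.prod_const,
        Finset.card_univ, Fintype.card_fin]) hsig
  have hfin : FiniteDimensional L (Fin (2 * s) → D) := Module.Finite.of_basis (pib u (2 * s))
  have hWq : finrank L W = (2 * r + 1) * s := hW1
  let w := Module.finBasisOfFinrankEq L W hWq
  obtain ⟨Λ, hΛ1, hΛ2⟩ := M.T.descent r (dgF c hc) (dgF_nondeg c hc h0)
    (fun i => (w i : Fin (2 * s) → D))
    (M.T.phi_indep (by omega) _ (by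
      intro a ha hsum
      choose l hl using fun i => M.comm (a i) (ha i)
      have h1 : ∑ i, l i • w i = 0 := by
        apply Subtype.ext
        rw [Submodule.coe_sum, Submodule.coe_zero, ← hsum]
        refine Finset.sum_congr rfl fun i _ => ?_
        rw [Submodule.coe_smul, M.smul_pi hD, hl]
      have h2 := Fintype.linearIndependent_iff.mp w.linearIndependent l h1
      funext i
      rw [← hl, h2 i, map_zero]
      rfl))
    (by
      intro i k
      apply M.p_zero
      exact hW2 _ (w i).2 _ (w k).2)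
    (by
      rw [Module.finrank_fin_fun]
      exact le_of_eq (by ring))
  rw [Module.finrank_fin_fun] at hΛ1
  exact ⟨Λ, by omega, hΛ2⟩

end MS

end Vale.Agent.P011.T2
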