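import Vale.Agent.P011.T2.Rep
import Vale.Agent.P011.Bdl.B2

/-!
The representation theorems over a division ring of odd degree.
-/

open Module Matrix

set_option linter.unusedSectionVars false

namespace Vale.Agent.P011.T2

section diag

variable {E L : Type} [Field E] [Field L] [CharZero L] [StarRing L] [Algebra E L]

/-- The extension `L` of `E` is quadratic with the involution as nontrivial automorphism. -/
structure QuadL (E L : Type) [Field E] [Field L] [StarRing L] [Algebra E L] (d : E) : Prop where
  fix : ∀ x : L, star x = x → ∃ e : E, algebraMap E L e = x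
  fix' : ∀ e : E, star (algebraMap E L e) = algebraMap E L e
  gen : ∃ θ : L, θ ≠ 0 ∧ star θ = -θ ∧ θ ^ 2 = algebraMap E L d

theorem QuadL.norm_pos {d : E} (hQ : QuadL E L d) {φ : E →+* ℝ} (hφ : φ d < 0) {x : L}
    (hx : x ≠ 0) : PosE φ (x * star x) := by
  obtain ⟨θ, hθ0, hθ, hθd⟩ := hQ.gen
  obtain ⟨p, hp⟩ := hQ.fix ((x + star x) / 2) (by
    rw [star_div₀, star_add, star_star, star_ofNat, add_comm])
  obtain ⟨r, hr⟩ := hQ.fix ((x - star x) / (2 * θ)) (by
    rw [star_div₀, star_sub, star_star, star_mul', star_ofNat, hθ, mul_neg, div_neg,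
      ← neg_div, neg_sub])
  have hx1 : x = algebraMap E L p + algebraMap E L r * θ := by
    rw [hp, hr]; field_simp; ring
  refine ⟨p ^ 2 - d * r ^ 2, ?_, ?_⟩
  · conv_rhs => rw [hx1, star_add, star_mul', hQ.fix', hQ.fix', hθ]
    rw [map_sub, map_mul, map_pow, map_pow, ← hθd]
    ring
  · rw [map_sub, map_mul, map_pow, map_pow]
    have h1 : φ p ≠ 0 ∨ φ r ≠ 0 := by
      by_contra h
      push Not at h
      obtain ⟨h1, h2⟩ := h
      apply hx
      rw [hx1, (map_eq_zero φ).mp h1, (map_eq_zero φ).mp h2, map_zero, zero_mul, add_zero]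
    rcases h1 with h1 | h1
    · have := pow_pos (abs_pos.mpr h1) 2
      rw [sq_abs] at this
      nlinarith [sq_nonneg (φ r)]
    · have := pow_pos (abs_pos.mpr h1) 2
      rw [sq_abs] at this
      nlinarith [sq_nonneg (φ p)]

variable {V : Type} [AddCommGroup V] [Module L V]

/-- the restriction of a form to a subspace -/
def HF.sub (b : HF L V) (U : Submodule L V) : HF L U where
  h x y := b.h x y
  add_left _ _ _ := b.add_left _ _ _
  smul_left _ _ _ := b.smul_left _ _ _
  star_h _ _ := b.star_h _ _

theorem PosE.or_neg {φ : E →+* ℝ} (hfix : ∀ x : L, star x = x → ∃ e : E, algebraMap E L e = x)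
    {x : L} (hx : star x = x) (h0 : x ≠ 0) : PosE φ x ∨ PosE φ (-x) := by
  obtain ⟨e, he⟩ := hfix x hx
  have he0 : φ e ≠ 0 := by
    intro h
    rw [(map_eq_zero φ).mp h, map_zero] at he
    exact h0 he.symm
  rcases lt_or_gt_of_ne he0 with h | h
  · exact Or.inr ⟨-e, by rw [map_neg, he], by rw [map_neg]; linarith⟩
  · exact Or.inl ⟨e, he, h⟩

theorem HF.exists_ne (b : HF L V) (hb : b.Nondeg) {d : E} (hQ : QuadL E L d) {v : V}
    (hv : v ≠ 0) : ∃ x, b.h x x ≠ 0 := by
  by_contra hcon
  push Not at hcon
  apply hv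
  apply hb
  intro y
  have h1 : ∀ x y, b.h x y + b.h y x = 0 := by
    intro x y
    have := hcon (x + y)
    rw [b.add_left, b.add_right, b.add_right, hcon, hcon] at this
    simpa using this
  obtain ⟨θ, hθ0, hθ, -⟩ := hQ.gen
  have h2 := h1 v y
  have h3 := h1 (θ • v) y
  rw [b.smul_left, b.smul_right, hθ, mul_neg, mul_comm (b.h y v)] at h3
  have h4 : b.h v y - b.h y v = 0 := by
    have : θ * (b.h v y - b.h y v) = 0 := by linear_combination h3
    exact (mul_eq_zero.mp this).resolve_left hθ0
  have h5 : 2 * b.h v y = 0 := by linear_combination h2 + h4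
  exact (mul_eq_zero.mp h5).resolve_left two_ne_zero

/-- the Gram matrix of a family -/
def HF.gram {ι : Type} (b : HF L V) (w : ι → V) : Matrix ι ι L := Matrix.of fun i j => b.h (w i) (w j)

theorem HF.gram_change {ι : Type} [Fintype ι] [DecidableEq ι] (b : HF L V) (v w : Basis ι L V) :
    (b.gram v).det = ((w.toMatrix v).det * star (w.toMatrix v).det) * (b.gram w).det := by
  have h1 : b.gram v = (w.toMatrix v)ᵀ * b.gram w * ((w.toMatrix v)ᵀ)ᴴ := by
    ext i j
    rw [Matrix.mul_apply]
    change b.h (v i) (v j) = _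
    have e : ∀ i, v i = ∑ k, w.toMatrix v k i • w k := fun i => (w.sum_toMatrix_smul_self v i).symm
    conv_lhs => rw [e i, e j]
    rw [b.sum_right]
    refine Finset.sum_congr rfl fun k _ => ?_
    rw [b.smul_right, b.sum_left, Matrix.mul_apply]
    congr 1
    refine Finset.sum_congr rfl fun l _ => ?_
    rw [b.smul_left]
    rfl
  rw [h1, Matrix.det_mul, Matrix.det_mul, Matrix.det_conjTranspose, Matrix.det_transpose]
  ring

theorem PosE.inf_eq_bot {φ : E →+* ℝ} (b : HF L V) {P N : Submodule L V}
    (hP : ∀ x ∈ P, x ≠ 0 → PosE φ (b.h x x)) (hN : ∀ x ∈ N, x ≠ 0 → PosE φ (-b.h x x)) :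
    P ⊓ N = ⊥ := by
  rw [eq_bot_iff]
  rintro x ⟨hx1, hx2⟩
  rw [Submodule.mem_bot]
  by_contra hx
  exact (hP x hx1 hx).not_neg (hN x hx2 hx)

theorem PosE.finrank_le [FiniteDimensional L V] {φ : E →+* ℝ} (b : HF L V) {P N : Submodule L V}
    (hP : ∀ x ∈ P, x ≠ 0 → PosE φ (b.h x x)) (hN : ∀ x ∈ N, x ≠ 0 → PosE φ (-b.h x x)) :
    finrank L P + finrank L N ≤ finrank L V := by
  have h1 := Submodule.finrank_sup_add_finrank_inf_eq P N
  rw [PosE.inf_eq_bot b hP hN, finrank_bot, add_zero] at h1
  rw [← h1]
  exact Submodule.finrank_le _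

/-- Diagonalisation at a real place, and the sign of the determinant. -/
theorem exists_PN {d : E} (hQ : QuadL E L d) {φ : E →+* ℝ} (hφ : φ d < 0) :
    ∀ (n : ℕ) (V : Type) [AddCommGroup V] [Module L V] [FiniteDimensional L V] (b : HF L V),
      b.Nondeg → finrank L V = n → ∃ (P N : Submodule L V) (w : Basis (Fin n) L V),
      n ≤ finrank L P + finrank L N ∧
      (∀ x ∈ P, x ≠ 0 → PosE φ (b.h x x)) ∧ (∀ x ∈ N, x ≠ 0 → PosE φ (-b.h x x)) ∧
      PosE φ ((-1) ^ (finrank L N) * (b.gram w).det) := by
  intro n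
  induction n with
  | zero =>
    intro V _ _ _ b _ hV
    refine ⟨⊥, ⊥, Module.finBasisOfFinrankEq L V hV, by omega, ?_, ?_, ?_⟩
    · intro x hx hx0; exact absurd ((Submodule.mem_bot _).mp hx) hx0
    · intro x hx hx0; exact absurd ((Submodule.mem_bot _).mp hx) hx0
    · rw [finrank_bot, pow_zero, one_mul, Matrix.det_isEmpty]
      exact ⟨1, map_one _, by rw [map_one]; exact one_pos⟩
  | succ n ih =>
    intro V _ _ _ b hb hV
    have hnt : Nontrivial V := Module.nontrivial_of_finrank_pos (R := L) (by omega)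
    obtain ⟨v, hv⟩ := exists_ne (0 : V)
    obtain ⟨x, hx⟩ := b.exists_ne hb hQ hv
    have hx0 : x ≠ 0 := by rintro rfl; exact hx (b.zero_left _)
    let U : Submodule L V := LinearMap.ker (b.lin x)
    have hU : ∀ y, y ∈ U ↔ b.h y x = 0 := fun y => LinearMap.mem_ker
    have hdec : ∀ y : V, y - (b.h y x / b.h x x) • x ∈ U := by
      intro y
      rw [hU, b.sub_left, b.smul_left, div_mul_cancel₀ _ hx, sub_self]
    have hUn : finrank L U = n := by
      have h1 : finrank L (LinearMap.range (b.lin x)) + finrank L U = finrank L V :=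
        LinearMap.finrank_range_add_finrank_ker (b.lin x)
      have h2 : LinearMap.range (b.lin x) = ⊤ := by
        rw [LinearMap.range_eq_top]
        intro l
        refine ⟨(l / b.h x x) • x, ?_⟩
        rw [b.lin_apply, b.smul_left, div_mul_cancel₀ _ hx]
      rw [h2, finrank_top, Module.finrank_self] at h1
      omega
    obtain ⟨P, N, w, hPN, hP, hN, hdet⟩ := ih U (b.sub U) (by
      rintro ⟨y, hy⟩ h
      apply Subtype.ext
      apply hb
      intro z
      have h1 := h ⟨_, hdec z⟩
      have h2 : b.h y (z - (b.h z x / b.h x x) • x) = 0 := h1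
      rw [b.sub_right, b.smul_right, (hU y).mp hy, zero_mul, sub_zero] at h2
      exact h2) hUn
    have hxU : ∀ (S : Submodule L U) , finrank L (S.map U.subtype ⊔ Submodule.span L {x} :
        Submodule L V) = finrank L S + 1 := by
      intro S
      have h1 := Submodule.finrank_sup_add_finrank_inf_eq (S.map U.subtype)
        (Submodule.span L {x})
      have h2 : S.map U.subtype ⊓ Submodule.span L {x} = ⊥ := by
        rw [eq_bot_iff]
        rintro y ⟨hy1, hy2⟩
        obtain ⟨z, hz, rfl⟩ := hy1
        obtain ⟨l, hl⟩ := Submodule.mem_span_singleton.mp hy2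
        have h3 : b.h z.1 x = 0 := (hU _).mp z.2
        have h4 : (z : V) = l • x := hl.symm
        rw [h4, b.smul_left] at h3
        have h5 := (mul_eq_zero.mp h3).resolve_right hx
        rw [Submodule.mem_bot]
        change (z : V) = 0
        rw [h4, h5, zero_smul]
      rw [h2, finrank_bot, add_zero, finrank_span_singleton hx0] at h1
      rw [h1]
      congr 1
      exact (LinearEquiv.finrank_eq (Submodule.equivMapOfInjective _
        U.injective_subtype S)).symm
    have hmapU : ∀ (S : Submodule L U), finrank L (S.map U.subtype) = finrank L S := fun S =>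
      (LinearEquiv.finrank_eq (Submodule.equivMapOfInjective _ U.injective_subtype S)).symm
    have hval : ∀ (z : U) (l : L), b.h ((z : V) + l • x) ((z : V) + l • x) =
        (b.sub U).h z z + (l * star l) * b.h x x := by
      intro z l
      have h3 : b.h z.1 x = 0 := (hU _).mp z.2
      have h4 : b.h x z.1 = 0 := by rw [← b.star_h, h3, star_zero]
      rw [b.add_left, b.add_right, b.add_right, b.smul_left, b.smul_left, b.smul_right,
        b.smul_right, h3, h4]
      change b.h z z + _ + _ = b.h z z + _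
      ring
    -- the basis
    let w' : Basis (Fin (n + 1)) L V := Module.Basis.mkFinCons x w (by
        intro c y hy h
        have h3 := (hU y).mp hy
        have h4 : y = -(c • x) := by
          rw [← add_eq_zero_iff_eq_neg, add_comm]; exact h
        rw [h4, b.neg_left, b.smul_left, neg_eq_zero] at h3
        exact (mul_eq_zero.mp h3).resolve_right hx) (by
        intro z
        refine ⟨-(b.h z x / b.h x x), ?_⟩
        have := hdec z
        rwa [sub_eq_add_neg, ← neg_smul] at this)
    have hw' : (w' : Fin (n + 1) → V) = Fin.cons x (fun i => (w i : V)) :=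
      Module.Basis.coe_mkFinCons x w _ _
    have hdet' : (b.gram w').det = b.h x x * ((b.sub U).gram w).det := by
      rw [Matrix.det_succ_row_zero, Fin.sum_univ_succ, Finset.sum_eq_zero]
      · have e1 : b.gram w' 0 0 = b.h x x := by
          change b.h (w' 0) (w' 0) = _
          rw [hw']; rfl
        have e2 : (b.gram w').submatrix Fin.succ (Fin.succAbove 0) = (b.sub U).gram w := by
          ext i j
          change b.h (w' (Fin.succ i)) (w' (Fin.succAbove 0 j)) = b.h (w i) (w j)
          rw [hw', Fin.zero_succAbove]; rfl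
        rw [e1, e2]; simp
      · intro i _
        have e1 : b.gram w' 0 (Fin.succ i) = 0 := by
          change b.h (w' 0) (w' (Fin.succ i)) = _
          rw [hw']
          change b.h x (w i) = 0
          rw [← b.star_h, (hU _).mp (w i).2, star_zero]
        rw [e1]; ring
    rcases PosE.or_neg (φ := φ) hQ.fix (b.star_h x x) hx with hs | hs
    · refine ⟨P.map U.subtype ⊔ Submodule.span L {x}, N.map U.subtype, w', ?_, ?_, ?_, ?_⟩
      · rw [hxU, hmapU]
        omega
      · intro y hy hy0
        obtain ⟨y1, hy1, y2, hy2, rfl⟩ := Submodule.mem_sup.mp hy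
        obtain ⟨z, hz, rfl⟩ := hy1
        obtain ⟨l, rfl⟩ := Submodule.mem_span_singleton.mp hy2
        change PosE φ (b.h ((z : V) + l • x) ((z : V) + l • x))
        rw [hval]
        by_cases hz0 : z = 0
        · subst hz0
          have hl : l ≠ 0 := by
            rintro rfl
            apply hy0
            simp
          rw [HF.zero_left, zero_add]
          exact (hQ.norm_pos hφ hl).mul hs
        · by_cases hl : l = 0
          · rw [hl, zero_mul, zero_mul, add_zero]
            exact hP z hz hz0
          · exact (hP z hz hz0).add ((hQ.norm_pos hφ hl).mul hs)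
      · intro y hy hy0
        obtain ⟨z, hz, rfl⟩ := hy
        exact hN z hz (by rintro rfl; exact hy0 rfl)
      · rw [hmapU, hdet']
        have := hs.mul hdet
        convert this using 1
        ring
    · refine ⟨P.map U.subtype, N.map U.subtype ⊔ Submodule.span L {x}, w', ?_, ?_, ?_, ?_⟩
      · rw [hxU, hmapU]
        omega
      · intro y hy hy0
        obtain ⟨z, hz, rfl⟩ := hy
        exact hP z hz (by rintro rfl; exact hy0 rfl)
      · intro y hy hy0
        obtain ⟨y1, hy1, y2, hy2, rfl⟩ := Submodule.mem_sup.mp hy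
        obtain ⟨z, hz, rfl⟩ := hy1
        obtain ⟨l, rfl⟩ := Submodule.mem_span_singleton.mp hy2
        change PosE φ (-b.h ((z : V) + l • x) ((z : V) + l • x))
        rw [hval, neg_add, ← mul_neg]
        by_cases hz0 : z = 0
        · subst hz0
          have hl : l ≠ 0 := by
            rintro rfl
            apply hy0
            simp
          rw [HF.zero_left, neg_zero, zero_add]
          exact (hQ.norm_pos hφ hl).mul hs
        · by_cases hl : l = 0
          · rw [hl, zero_mul, zero_mul, add_zero]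
            exact hN z hz hz0
          · exact (hN z hz hz0).add ((hQ.norm_pos hφ hl).mul hs)
      · rw [hxU, hdet']
        have := hs.mul hdet
        convert this using 1
        ring

theorem PosE.of_mul {φ : E →+* ℝ} {a b : L} (hab : PosE φ (a * b)) (hb : PosE φ b) :
    PosE φ a := by
  obtain ⟨e, he, he'⟩ := hab
  obtain ⟨f, hf, hf'⟩ := hb
  have hf0 : f ≠ 0 := by rintro rfl; rw [map_zero] at hf'; exact lt_irrefl _ hf'
  refine ⟨e / f, ?_, ?_⟩
  · rw [map_div₀, he, hf, mul_div_cancel_right₀]
    rw [← hf]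
    exact (map_ne_zero _).mpr hf0
  · rw [map_div₀]; exact div_pos he' hf'

theorem PosE.pow {φ : E →+* ℝ} {a : L} (ha : PosE φ a) (n : ℕ) : PosE φ (a ^ n) := by
  induction n with
  | zero => exact ⟨1, by rw [map_one, pow_zero], by rw [map_one]; exact one_pos⟩
  | succ n ih => rw [pow_succ]; exact ih.mul ha

/-- The sign of the determinant for given positive and negative subspaces. -/
theorem det_sign {d : E} (hQ : QuadL E L d) {φ : E →+* ℝ} (hφ : φ d < 0)
    {n : ℕ} [FiniteDimensional L V] (b : HF L V) (hb : b.Nondeg) (v : Basis (Fin n) L V)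
    {P N : Submodule L V} (hPN : n ≤ finrank L P + finrank L N)
    (hP : ∀ x ∈ P, x ≠ 0 → PosE φ (b.h x x)) (hN : ∀ x ∈ N, x ≠ 0 → PosE φ (-b.h x x)) :
    PosE φ ((-1) ^ (finrank L N) * (b.gram v).det) := by
  have hn : finrank L V = n := by rw [Module.finrank_eq_card_basis v, Fintype.card_fin]
  obtain ⟨P', N', w, h1, h2, h3, h4⟩ := exists_PN hQ hφ n V b hb hn
  have h5 := PosE.finrank_le b hP hN
  have h6 := PosE.finrank_le b h2 h3
  have h7 := PosE.finrank_le b hP h3
  have h8 := PosE.finrank_le b h2 hN
  have h9 : finrank L N = finrank L N' := by omega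
  rw [h9, b.gram_change v w]
  have h10 : (w.toMatrix v).det ≠ 0 := by
    have := w.toMatrix_mul_toMatrix_flip v
    intro h0
    have h := congrArg Matrix.det this
    rw [Matrix.det_mul, h0, zero_mul, Matrix.det_one] at h
    exact zero_ne_one h
  have := (hQ.norm_pos hφ h10).mul h4
  convert this using 1
  ring

end diag

section rep

variable {K D E L : Type} [Field K] [DivisionRing D] [StarRing D] [Algebra K D]
  [Algebra.IsCentral K D] [FiniteDimensional K D] [Field E]
  [Field L] [CharZero L] [StarRing L] [Algebra E L] [Algebra K L] {r : ℕ}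
  (M : MS K D E L (2 * r + 1)) [Module L D] (hD : ∀ (l : L) (x : D), l • x = M.j l * x)
  (u : Basis (Fin (2 * r + 1)) L D)

namespace MS

/-- the reduced norm, computed over the maximal subfield -/
noncomputable def nrm (x : D) : L := (M.rho hD u x).det

theorem nrm_mul (x y : D) : M.nrm hD u (x * y) = M.nrm hD u x * M.nrm hD u y := by
  rw [nrm, map_mul, Matrix.det_mul]; rfl

theorem nrm_one : M.nrm hD u 1 = 1 := by rw [nrm, map_one, Matrix.det_one]

theorem nrm_ne_zero {x : D} (hx : x ≠ 0) : M.nrm hD u x ≠ 0 := by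
  intro h
  have := M.nrm_mul hD u x x⁻¹
  rw [mul_inv_cancel₀ hx, nrm_one, h, zero_mul] at this
  exact one_ne_zero this

theorem nrm_neg (x : D) : M.nrm hD u (-x) = - M.nrm hD u x := by
  rw [nrm, map_neg, Matrix.det_neg, Fintype.card_fin, Odd.neg_one_pow ⟨r, rfl⟩, neg_one_mul]; rfl

theorem nrm_algebraMap (k : K) :
    M.nrm hD u (algebraMap K D k) = algebraMap K L k ^ (2 * r + 1) := by
  rw [nrm, AlgHom.commutes, Matrix.algebraMap_eq_diagonal, Matrix.det_diagonal]
  simp

theorem nrm_star {e : D} (he : star e = e) : star (M.nrm hD u e) = M.nrm hD u e := by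
  have h1 : (M.gr u e).det = M.nrm hD u e * (M.gr u 1).det := by
    rw [M.gr_eq hD u, Matrix.det_mul]; rfl
  have h2 : ∀ e : D, star e = e → star (M.gr u e).det = (M.gr u e).det := by
    intro e he
    rw [← Matrix.det_conjTranspose, M.gr_star u he]
  have h3 := h2 e he
  rw [h1, star_mul', h2 1 (star_one D)] at h3
  exact mul_right_cancel₀ (M.det_gr_one_ne hD u) h3

theorem norm_eq (hdeg : finrank K D = (2 * r + 1) ^ 2) (x : D) :
    algebraMap K L (Algebra.norm K x) = M.nrm hD u x ^ (2 * r + 1) :=
  Vale.Agent.P011S.SF.norm_eq_det_pow (by omega) hdeg (M.rho hD u) x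

/-- the rank one form attached to a symmetric element -/
def oneF (c : D) (hc : star c = c) : HF D D where
  h x y := x * c * star y
  add_left x y z := by rw [add_mul, add_mul]
  smul_left a x y := by rw [smul_eq_mul]; simp only [mul_assoc]
  star_h x y := by rw [star_mul, star_mul, hc, star_star, mul_assoc]

include hD in
theorem smul_self (l : L) (x : D) : l • x = M.j l • x := by rw [hD, smul_eq_mul]

/-- the rank one form over the subfield -/
def lineF (c : D) (hc : star c = c) : HF L D := M.res (M.smul_self hD) (oneF c hc)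

theorem lineF_h (c : D) (hc : star c = c) (x y : D) :
    (M.lineF hD c hc).h x y = M.p (x * c * star y) := rfl

theorem lineF_nondeg (c : D) (hc : star c = c) (h0 : c ≠ 0) : (M.lineF hD c hc).Nondeg := by
  intro x hx
  have h1 := M.p_nondeg (x := x * c) hx
  exact (mul_eq_zero.mp h1).resolve_right h0

theorem lineF_gram (c : D) (hc : star c = c) :
    ((M.lineF hD c hc).gram u).det = M.nrm hD u c * (M.gr u 1).det := by
  have h1 : (M.gr u c).det = M.nrm hD u c * (M.gr u 1).det := by
    rw [M.gr_eq hD u, Matrix.det_mul]; rfl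
  rw [← h1]
  rfl

/-- The two symmetric elements have the same signature at `φ`. -/
def SameSig (φ : E →+* ℝ) (c e : D) : Prop :=
  ∃ P N P' N' : Submodule L D, 2 * r + 1 ≤ finrank L P + finrank L N' ∧
    2 * r + 1 ≤ finrank L P' + finrank L N ∧
    (∀ x ∈ P, x ≠ 0 → PosE φ (M.p (x * c * star x))) ∧
    (∀ x ∈ N, x ≠ 0 → PosE φ (-M.p (x * c * star x))) ∧
    (∀ x ∈ P', x ≠ 0 → PosE φ (M.p (x * e * star x))) ∧
    (∀ x ∈ N', x ≠ 0 → PosE φ (-M.p (x * e * star x)))

include hD in
theorem SameSig.nrm_pos {d : E} (hQ : QuadL E L d) {φ : E →+* ℝ} (hφ : φ d < 0) {c e : D}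
    (hc : star c = c) (he : star e = e) (hc0 : c ≠ 0) (he0 : e ≠ 0) (h : M.SameSig φ c e) :
    PosE φ (M.nrm hD u c * M.nrm hD u e) := by
  obtain ⟨P, N, P', N', h1, h2, hP, hN, hP', hN'⟩ := h
  have hfin : FiniteDimensional L D := Module.Finite.of_basis u
  have hn : finrank L D = 2 * r + 1 := by rw [Module.finrank_eq_card_basis u, Fintype.card_fin]
  have e1 := PosE.finrank_le (M.lineF hD c hc) hP hN
  have e2 := PosE.finrank_le (M.lineF hD e he) hP' hN'
  have e3 : finrank L N = finrank L N' := by omega
  have d1 := det_sign hQ hφ (M.lineF hD c hc) (M.lineF_nondeg hD c hc hc0) u (P := P) (N := N)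
    (by omega) hP hN
  have d2 := det_sign hQ hφ (M.lineF hD e he) (M.lineF_nondeg hD e he he0) u (P := P') (N := N')
    (by omega) hP' hN'
  rw [M.lineF_gram hD u] at d1 d2
  rw [e3] at d1
  have d3 := d1.mul d2
  have hg0 := M.det_gr_one_ne hD u
  have hgs : star (M.gr u 1).det = (M.gr u 1).det := by
    rw [← Matrix.det_conjTranspose, M.gr_star u (star_one D)]
  have d4 := hQ.norm_pos hφ hg0
  rw [hgs] at d4
  refine PosE.of_mul (b := (M.gr u 1).det * (M.gr u 1).det) ?_ d4
  have h3 : ((-1 : L) ^ finrank L N') * (-1) ^ finrank L N' = 1 := by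
    rw [← mul_pow]; norm_num
  convert d3 using 1
  linear_combination (- M.nrm hD u c * M.nrm hD u e * (M.gr u 1).det ^ 2) * h3

end MS

theorem finrank_pi_ge {t : ℕ} [FiniteDimensional L D] (S : Fin t → Submodule L D) :
    ∑ i, finrank L (S i) ≤ finrank L ↥(Submodule.pi Set.univ S) := by
  rw [← Module.finrank_pi_fintype]
  let g : (∀ i, S i) →ₗ[L] ↥(Submodule.pi Set.univ S) :=
    { toFun := fun x => ⟨fun i => x i, fun i _ => (x i).2⟩
      map_add' := fun a b => rfl
      map_smul' := fun a b => rfl }
  apply LinearMap.finrank_le_finrank_of_injective (f := g)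
  intro a b hab
  funext i
  apply Subtype.ext
  exact congrFun (congrArg Subtype.val hab) i

theorem posE_sum {φ : E →+* ℝ} {t : ℕ} (f : Fin t → D → L) (hf : ∀ i, f i 0 = 0)
    (S : Fin t → Submodule L D) (h : ∀ i, ∀ x ∈ S i, x ≠ 0 → PosE φ (f i x)) (x : Fin t → D)
    (hx : ∀ i, x i ∈ S i) (hx0 : x ≠ 0) : PosE φ (∑ i, f i (x i)) := by
  classical
  have key : ∀ s : Finset (Fin t), (∀ i ∈ s, x i = 0) ∨ PosE φ (∑ i ∈ s, f i (x i)) := by
    intro s
    induction s using Finset.induction_on with
    | empty => left; intro i hi; exact absurd hi (Finset.notMem_empty _)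
    | insert a s ha ih =>
      rw [Finset.sum_insert ha]
      by_cases hxa : x a = 0
      · rw [hxa, hf, zero_add]
        rcases ih with ih | ih
        · left
          intro i hi
          rcases Finset.mem_insert.mp hi with rfl | hi
          · exact hxa
          · exact ih i hi
        · exact Or.inr ih
      · right
        rcases ih with ih | ih
        · rw [Finset.sum_eq_zero (fun i hi => by rw [ih i hi, hf]), add_zero]
          exact h a _ (hx a) hxa
        · exact (h a _ (hx a) hxa).add ih
  rcases key Finset.univ with h1 | h1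
  · exact absurd (funext fun i => h1 i (Finset.mem_univ _)) hx0
  · exact h1

theorem HF.orth_val {V : Type} [AddCommGroup V] [Module D V] (B : HF D V) {x y : V}
    (hxy : B.h y x = 0) (a b : D) : B.h (a • x + b • y) (a • x + b • y) =
      a * B.h x x * star a + b * B.h y y * star b := by
  have hyx : B.h x y = 0 := by rw [← B.star_h, hxy, star_zero]
  rw [B.add_left, B.add_right, B.add_right, B.smul_left, B.smul_left, B.smul_left, B.smul_left,
    B.smul_right, B.smul_right, B.smul_right, B.smul_right, hxy, hyx]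
  simp only [zero_mul, mul_zero, add_zero, zero_add, mul_assoc]

include hD u in
/-- A form of rank at least two represents every element with the signatures of one of its
values. -/
theorem MS.represents {d : E} (hQ : QuadL E L d) (hL : LagrProp E L d)
    (hdeg : finrank K D = (2 * r + 1) ^ 2) {V : Type} [AddCommGroup V] [Module D V]
    [FiniteDimensional D V] (B : HF D V) (hB : ∀ x, B.h x x = 0 → x = 0)
    (hV : 2 ≤ finrank D V) {x : V} (hx : x ≠ 0) {e : D} (he : star e = e) (he0 : e ≠ 0)
    (hs : ∀ φ : E →+* ℝ, φ d < 0 → M.SameSig φ (B.h x x) e) : ∃ y, B.h y y = e := by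
  have hfin : FiniteDimensional L D := Module.Finite.of_basis u
  have hn : finrank L D = 2 * r + 1 := by rw [Module.finrank_eq_card_basis u, Fintype.card_fin]
  have hxx : B.h x x ≠ 0 := fun h => hx (hB x h)
  -- a vector orthogonal to `x`
  obtain ⟨y, hy0, hyx⟩ : ∃ y, y ≠ 0 ∧ B.h y x = 0 := by
    have h1 : finrank D (LinearMap.range (B.lin x)) + finrank D (LinearMap.ker (B.lin x)) =
        finrank D V := LinearMap.finrank_range_add_finrank_ker (B.lin x)
    have h2 := Submodule.finrank_le (LinearMap.range (B.lin x))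
    rw [Module.finrank_self] at h2
    have h3 : Nontrivial (LinearMap.ker (B.lin x)) :=
      Module.nontrivial_of_finrank_pos (R := D) (by omega)
    obtain ⟨y, hy⟩ := _root_.exists_ne (0 : LinearMap.ker (B.lin x))
    exact ⟨y, fun h => hy (Subtype.ext h), LinearMap.mem_ker.mp y.2⟩
  set e0 := B.h x x with he0_def
  set c := B.h y y with hc_def
  have hc0 : c ≠ 0 := fun h => hy0 (hB y h)
  have hse0 : star e0 = e0 := B.star_h x x
  have hsc : star c = c := B.star_h y y
  set ν := M.nrm hD u e0 * M.nrm hD u e with hν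
  have hνs : star ν = ν := by
    rw [hν, star_mul', M.nrm_star hD u hse0, M.nrm_star hD u he]
  set κ : K := Algebra.norm K (e0 * e) with hκ
  have hκL : algebraMap K L κ = ν ^ (2 * r + 1) := by
    rw [hκ, M.norm_eq hD u hdeg, M.nrm_mul hD u]
  have hκD : algebraMap K D κ = M.j (ν ^ (2 * r + 1)) := by
    rw [← hκL, AlgHom.commutes]
  have hκs : star (algebraMap K D κ) = algebraMap K D κ := by
    rw [hκD, ← M.j_star, star_pow, hνs]
  have hν0 : ν ≠ 0 := mul_ne_zero (M.nrm_ne_zero hD u hxx) (M.nrm_ne_zero hD u he0)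
  have hκ0 : algebraMap K D κ ≠ 0 := by
    rw [hκD]
    exact (map_ne_zero M.j).mpr (pow_ne_zero _ hν0)
  set lc := algebraMap K D κ * c with hlc
  have hslc : star lc = lc := by
    rw [hlc, star_mul, hκs, hsc, Algebra.commutes]
  let cf : Fin (2 * 2) → D := ![e0, c, -e, -lc]
  have hcf : ∀ i, star (cf i) = cf i := by
    intro i
    fin_cases i
    · exact hse0
    · exact hsc
    · change star (-e) = -e; rw [star_neg, he]
    · change star (-lc) = -lc; rw [star_neg, hslc]
  have hcf0 : ∀ i, cf i ≠ 0 := by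
    intro i
    fin_cases i
    · exact hxx
    · exact hc0
    · exact neg_ne_zero.mpr he0
    · exact neg_ne_zero.mpr (mul_ne_zero hκ0 hc0)
  obtain ⟨Λ, hΛ1, hΛ2⟩ := M.lagr_diag hD u hL (s := 2) cf hcf hcf0 (by
    refine ⟨ν ^ (2 * r ^ 2 + 2 * r + 1) * M.nrm hD u c * (M.gr u 1).det ^ 2, ?_, ?_⟩
    · exact mul_ne_zero (mul_ne_zero (pow_ne_zero _ hν0) (M.nrm_ne_zero hD u hc0))
        (pow_ne_zero _ (M.det_gr_one_ne hD u))
    · have hgs : star (M.gr u 1).det = (M.gr u 1).det := by
        rw [← Matrix.det_conjTranspose, M.gr_star u (star_one D)]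
      have hstar : star (ν ^ (2 * r ^ 2 + 2 * r + 1) * M.nrm hD u c * (M.gr u 1).det ^ 2) =
          ν ^ (2 * r ^ 2 + 2 * r + 1) * M.nrm hD u c * (M.gr u 1).det ^ 2 := by
        rw [star_mul', star_mul', star_pow, star_pow, hνs, hgs, M.nrm_star hD u hsc]
      rw [hstar]
      have hprod : ∏ i, (M.rho hD u (cf i)).det = M.nrm hD u e0 * M.nrm hD u c *
          M.nrm hD u (-e) * M.nrm hD u (-lc) := Fin.prod_univ_four _
      rw [hprod, M.nrm_neg hD u, M.nrm_neg hD u, hlc, M.nrm_mul hD u,
        M.nrm_algebraMap hD u, hκL]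
      have h1 : ((-1 : L)) ^ ((2 * r + 1) * 2) = 1 := by
        rw [mul_comm, pow_mul]; norm_num
      rw [h1, one_mul]
      have h2 : (ν ^ (2 * r + 1)) ^ (2 * r + 1) * ν =
          ν ^ (2 * r ^ 2 + 2 * r + 1) * ν ^ (2 * r ^ 2 + 2 * r + 1) := by
        rw [← pow_mul, ← pow_succ, ← pow_add]
        congr 1
        ring
      have h3 : M.nrm hD u e0 * M.nrm hD u e = ν := hν.symm
      calc _ = ((ν ^ (2 * r + 1)) ^ (2 * r + 1) * (M.nrm hD u e0 * M.nrm hD u e)) *
            (M.nrm hD u c ^ 2 * (M.gr u 1).det ^ 4) := by ring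
        _ = _ := by rw [h3, h2]; ring) (by
    intro φ hφ
    obtain ⟨P, N, P', N', h1, h2, hP, hN, hP', hN'⟩ := hs φ hφ
    obtain ⟨Pc, Nc, -, hPNc, hPc, hNc, -⟩ := exists_PN hQ hφ (2 * r + 1) D
      (M.lineF hD c hsc) (M.lineF_nondeg hD c hsc hc0) hn
    have hκp : PosE φ (algebraMap K L κ) := by
      rw [hκL]
      exact (MS.SameSig.nrm_pos M hD u hQ hφ hse0 he hxx he0 (hs φ hφ)).pow _
    have hlcv : ∀ z : D, M.p (z * lc * star z) = algebraMap K L κ * M.p (z * c * star z) := by
      intro z
      rw [← M.p_left, AlgHom.commutes, hlc, ← mul_assoc z, ← Algebra.commutes κ z]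
      simp only [mul_assoc]
    have hsumv : ∀ z : Fin (2 * 2) → D, M.p ((dgF cf hcf).h z z) =
        ∑ i, (fun (i : Fin (2 * 2)) (w : D) => M.p (w * cf i * star w)) i (z i) := by
      intro z
      rw [dgF_h, M.p_sum]
    refine ⟨Submodule.pi Set.univ ![P, Pc, N', Nc], Submodule.pi Set.univ ![N, Nc, P', Pc],
      ?_, ?_, ?_, ?_⟩
    · refine le_trans ?_ (finrank_pi_ge (L := L) (D := D) ![P, Pc, N', Nc])
      rw [Fin.sum_univ_four]
      change _ ≤ finrank L P + finrank L Pc + finrank L N' + finrank L Nc
      omega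
    · refine le_trans ?_ (finrank_pi_ge (L := L) (D := D) ![N, Nc, P', Pc])
      rw [Fin.sum_univ_four]
      change _ ≤ finrank L N + finrank L Nc + finrank L P' + finrank L Pc
      omega
    · intro z hz hz0
      rw [hsumv]
      refine posE_sum (fun (i : Fin (2 * 2)) (w : D) => M.p (w * cf i * star w))
        (fun i => ?_) ![P, Pc, N', Nc] ?_ z (fun i => hz i (Set.mem_univ i)) hz0
      · simp only [zero_mul, M.p_zero']
      · intro i w hw hw0
        fin_cases i
        · exact hP w hw hw0
        · exact hPc w hw hw0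
        · change PosE φ (M.p (w * -e * star w))
          rw [mul_neg, neg_mul, M.p_neg]
          exact hN' w hw hw0
        · change PosE φ (M.p (w * -lc * star w))
          rw [mul_neg, neg_mul, M.p_neg, hlcv, ← mul_neg]
          exact hκp.mul (hNc w hw hw0)
    · intro z hz hz0
      rw [hsumv, ← Finset.sum_neg_distrib]
      refine posE_sum (fun (i : Fin (2 * 2)) (w : D) => - M.p (w * cf i * star w))
        (fun i => ?_) ![N, Nc, P', Pc] ?_ z (fun i => hz i (Set.mem_univ i)) hz0
      · simp only [zero_mul, M.p_zero', neg_zero]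
      · intro i w hw hw0
        fin_cases i
        · exact hN w hw hw0
        · exact hNc w hw hw0
        · change PosE φ (-M.p (w * -e * star w))
          rw [mul_neg, neg_mul, M.p_neg, neg_neg]
          exact hP' w hw hw0
        · change PosE φ (-M.p (w * -lc * star w))
          rw [mul_neg, neg_mul, M.p_neg, hlcv, neg_neg]
          exact hκp.mul (hPc w hw hw0))
  have hval : ∀ z : Fin (2 * 2) → D, (dgF cf hcf).h z z = B.h (z 0 • x + z 1 • y)
      (z 0 • x + z 1 • y) - z 2 * e * star (z 2) - z 3 * lc * star (z 3) := by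
    intro z
    rw [B.orth_val hyx, dgF_h]
    rw [Fin.sum_univ_four]
    change z 0 * e0 * star (z 0) + z 1 * c * star (z 1) + z 2 * -e * star (z 2) +
      z 3 * -lc * star (z 3) = _
    simp only [mul_neg, neg_mul]
    abel
  let g : Λ →ₗ[D] (Fin 2 → D) :=
    { toFun := fun z => ![z.1 2, z.1 3]
      map_add' := fun a b => by
        funext i; fin_cases i <;> rfl
      map_smul' := fun a b => by
        funext i; fin_cases i <;> rfl }
  have hg : Function.Injective g := by
    rw [← LinearMap.ker_eq_bot, LinearMap.ker_eq_bot']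
    rintro ⟨z, hz⟩ h
    have h2 : z 2 = 0 := congrFun h 0
    have h3 : z 3 = 0 := congrFun h 1
    have h4 := hval z
    rw [hΛ2 z hz z hz, h2, h3, zero_mul, zero_mul, zero_mul, zero_mul, sub_zero, sub_zero] at h4
    have h5 := hB _ h4.symm
    have h6 : z 0 * B.h x x = 0 := by
      have := congrArg (fun w => B.h w x) h5
      simpa [B.add_left, B.smul_left, hyx] using this
    have h7 : z 0 = 0 := (mul_eq_zero.mp h6).resolve_right hxx
    have h8 : z 1 = 0 := by
      rw [h7, zero_smul, zero_add] at h5
      exact (smul_eq_zero.mp h5).resolve_right hy0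
    apply Subtype.ext
    funext i
    fin_cases i
    · exact h7
    · exact h8
    · exact h2
    · exact h3
  have hgs : Function.Surjective g := by
    have h1 := LinearMap.finrank_le_finrank_of_injective hg
    rw [Module.finrank_fin_fun] at h1
    exact (LinearMap.injective_iff_surjective_of_finrank_eq_finrank
      (by rw [Module.finrank_fin_fun]; omega)).mp hg
  obtain ⟨⟨z, hz⟩, hzg⟩ := hgs ![1, 0]
  have h2 : z 2 = 1 := congrFun hzg 0
  have h3 : z 3 = 0 := congrFun hzg 1
  have h4 := hval z
  rw [hΛ2 z hz z hz, h2, h3, star_one, one_mul, mul_one, zero_mul, zero_mul, sub_zero] at h4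
  exact ⟨_, (sub_eq_zero.mp h4.symm)⟩

end rep

end Vale.Agent.P011.T2
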